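import Mathlib

/-! Product measures: reindexing, transposition, and pairs of products. -/

open MeasureTheory MeasureTheory.Measure
open scoped ENNReal

namespace Vale.Agent.P168.Upper

variable {α ι κ : Type} [MeasurableSpace α] [Fintype ι] [Fintype κ]

/-- Reading a product measure along an injection gives a product measure. -/
theorem mp_precomp (μ : Measure α) [IsProbabilityMeasure μ] {g : κ → ι}
    (hg : Function.Injective g) :
    MeasurePreserving (fun x : ι → α => fun a => x (g a)) (Measure.pi fun _ => μ)
      (Measure.pi fun _ => μ) := by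
  classical
  have hm : Measurable fun x : ι → α => fun a => x (g a) := by fun_prop
  refine ⟨hm, (Measure.pi_eq fun s hs => ?_).symm⟩
  have hpre : (fun x : ι → α => fun a => x (g a)) ⁻¹' Set.pi Set.univ s =
      Set.pi Set.univ (Function.extend g s fun _ => Set.univ) := by
    ext x
    simp only [Set.mem_preimage, Set.mem_pi, Set.mem_univ, forall_true_left]
    refine ⟨fun h i => ?_, fun h a => by simpa [hg.extend_apply] using h (g a)⟩
    by_cases hi : ∃ a, g a = i
    · obtain ⟨a, rfl⟩ := hi
      simpa [hg.extend_apply] using h a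
    · simp [Function.extend_apply' _ _ _ hi]
  rw [map_apply hm (.univ_pi hs), hpre, Measure.pi_pi]
  refine (Fintype.prod_of_injective g hg _ _ (fun i hi => ?_) fun a => ?_).symm
  · rw [Function.extend_apply' _ _ _ (fun ⟨a, ha⟩ => hi ⟨a, ha⟩), measure_univ]
  · rw [hg.extend_apply]

theorem mp_curry (μ : Measure α) [IsProbabilityMeasure μ] :
    MeasurePreserving (fun x : ι × κ → α => fun i j => x (i, j)) (Measure.pi fun _ => μ)
      (Measure.pi fun _ => Measure.pi fun _ => μ) := by
  refine ⟨by fun_prop, ?_⟩
  simp only [← infinitePi_eq_pi]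
  exact infinitePi_map_curry fun _ _ => μ

theorem mp_uncurry (μ : Measure α) [IsProbabilityMeasure μ] :
    MeasurePreserving (fun x : ι → κ → α => fun p : ι × κ => x p.1 p.2)
      (Measure.pi fun _ => Measure.pi fun _ => μ) (Measure.pi fun _ => μ) := by
  refine ⟨by fun_prop, ?_⟩
  simp only [← infinitePi_eq_pi]
  exact infinitePi_map_curry_symm fun _ _ => μ

/-- Transposition. -/
theorem mp_flip (μ : Measure α) [IsProbabilityMeasure μ] :
    MeasurePreserving (fun x : ι → κ → α => fun j i => x i j)
      (Measure.pi fun _ => Measure.pi fun _ => μ) (Measure.pi fun _ => Measure.pi fun _ => μ) :=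
  ((mp_curry μ).comp (mp_precomp μ (g := Prod.swap) Prod.swap_injective)).comp (mp_uncurry μ)

/-- Zipping two products. -/
theorem mp_zip {β : Type} [MeasurableSpace β] (μ : Measure α) (ν : Measure β)
    [IsProbabilityMeasure μ] [IsProbabilityMeasure ν] :
    MeasurePreserving (fun x : (ι → α) × (ι → β) => fun i => (x.1 i, x.2 i))
      ((Measure.pi fun _ => μ).prod (Measure.pi fun _ => ν)) (Measure.pi fun _ => μ.prod ν) :=
  (measurePreserving_arrowProdEquivProdArrow α β ι (fun _ => μ) fun _ => ν).symm

/-- Componentwise maps of products. -/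
theorem mp_pi {β : Type} [MeasurableSpace β] {μ : Measure α} {ν : Measure β}
    [IsProbabilityMeasure μ] [IsProbabilityMeasure ν] {f : α → β}
    (hf : MeasurePreserving f μ ν) :
    MeasurePreserving (fun x : ι → α => fun i => f (x i)) (Measure.pi fun _ => μ)
      (Measure.pi fun _ => ν) :=
  measurePreserving_pi _ _ fun _ => hf

theorem integral_mp {β : Type} [MeasurableSpace β] {μ : Measure α} {ν : Measure β} {f : α → β}
    (hf : MeasurePreserving f μ ν) {g : β → ℝ} (hg : Measurable g) :
    ∫ a, g (f a) ∂μ = ∫ b, g b ∂ν := by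
  rw [← hf.map_eq, integral_map hf.measurable.aemeasurable hg.aestronglyMeasurable]

end Vale.Agent.P168.Upper
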