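import Vale.Agent.P168.Statements
import Vale.Agent.P168.Upper.Product

/-! Cascades written over their leaves; independent marks from independent trees. -/

open MeasureTheory ProbabilityTheory
open scoped BigOperators ENNReal

namespace Vale.Agent.P168.Upper

noncomputable section

variable {β : Type}

/-- The leaves of a cascade. -/
abbrev Leaf {r : ℕ} (n : Fin r → ℕ) := (p : Fin r) → Fin (n p)

/-- The unnormalised weight of a leaf. -/
def leafWt : (r : ℕ) → (Fin r → ℝ) → (n : Fin r → ℕ) → CascTree β r n → Leaf n → ℝ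
  | 0, _, _, _, _ => 1
  | r + 1, m, n, t, α => ((n 0 : ℝ) * (t (α 0)).1) ^ (-(1 / m 0)) *
      leafWt r (Fin.tail m) (Fin.tail n) (t (α 0)).2.2 fun p => α p.succ

/-- The marks along a leaf. -/
def leafMarks : (r : ℕ) → (n : Fin r → ℕ) → CascTree β r n → Leaf n → Fin r → β
  | 0, _, _, _ => Fin.elim0
  | r + 1, n, t, α => Fin.cons (t (α 0)).2.1
      (leafMarks r (Fin.tail n) (t (α 0)).2.2 fun p => α p.succ)

theorem cascSum_eq : ∀ (r : ℕ) (m : Fin r → ℝ) (n : Fin r → ℕ) (Y : (Fin r → β) → ℝ)
    (t : CascTree β r n),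
    cascSum r m n Y t = ∑ α, leafWt r m n t α * Y (leafMarks r n t α)
  | 0, m, n, Y, t => by simp [cascSum, leafWt, leafMarks]
  | r + 1, m, n, Y, t => by
    rw [← (Fin.consEquiv fun p => Fin (n p)).sum_comp, Fintype.sum_prod_type, cascSum]
    refine Finset.sum_congr rfl fun k _ => ?_
    rw [cascSum_eq r, Finset.mul_sum]
    refine Finset.sum_congr rfl fun α _ => ?_
    simp only [leafWt, leafMarks, Fin.consEquiv, Equiv.coe_fn_mk, Fin.cons_zero, Fin.cons_succ]
    exact (mul_assoc _ _ _).symm

variable [MeasurableSpace β]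

theorem cascLaw_isProb (ν : Measure β) [IsProbabilityMeasure ν] :
    ∀ (r : ℕ) (n : Fin r → ℕ), IsProbabilityMeasure (cascLaw ν r n)
  | 0, _ => Measure.dirac.isProbabilityMeasure
  | r + 1, n => by
    have := cascLaw_isProb ν r (Fin.tail n)
    have : IsProbabilityMeasure unif := ⟨by simp [unif]⟩
    exact inferInstanceAs (IsProbabilityMeasure
      (Measure.pi fun _ : Fin (n 0) => unif.prod (ν.prod (cascLaw ν r (Fin.tail n)))))

instance (ν : Measure β) [IsProbabilityMeasure ν] (r : ℕ) (n : Fin r → ℕ) :
    IsProbabilityMeasure (cascLaw ν r n) := cascLaw_isProb ν r n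

instance : IsProbabilityMeasure unif := ⟨by simp [unif]⟩

theorem measurable_leafWt : ∀ (r : ℕ) (m : Fin r → ℝ) (n : Fin r → ℕ) (α : Leaf n),
    Measurable fun t : CascTree β r n => leafWt r m n t α
  | 0, _, _, _ => measurable_const
  | r + 1, m, n, α => by
    have hk : Measurable fun t : CascTree β (r + 1) n => t (α 0) := measurable_pi_apply _
    exact (((measurable_fst.comp hk).const_mul _).pow_const _).mul
      ((measurable_leafWt r _ _ _).comp (measurable_snd.comp (measurable_snd.comp hk)))

theorem measurable_leafMarks : ∀ (r : ℕ) (n : Fin r → ℕ) (α : Leaf n),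
    Measurable fun t : CascTree β r n => leafMarks r n t α
  | 0, _, _ => measurable_const
  | r + 1, n, α => by
    have hk : Measurable fun t : CascTree β (r + 1) n => t (α 0) := measurable_pi_apply _
    refine measurable_pi_lambda _ fun p => ?_
    cases p using Fin.cases with
    | zero =>
      simp only [leafMarks, Fin.cons_zero]
      exact measurable_fst.comp (measurable_snd.comp hk)
    | succ p =>
      simp only [leafMarks, Fin.cons_succ]
      exact (measurable_pi_apply p).comp ((measurable_leafMarks r (Fin.tail n) _).comp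
        (measurable_snd.comp (measurable_snd.comp hk)))

theorem ae_leafWt_pos (ν : Measure β) [IsProbabilityMeasure ν] :
    ∀ (r : ℕ) (m : Fin r → ℝ) (n : Fin r → ℕ), ∀ᵐ t ∂cascLaw ν r n, ∀ α, 0 < leafWt r m n t α
  | 0, _, _ => ae_of_all _ fun _ _ => one_pos
  | r + 1, m, n => by
    have h1 : ∀ᵐ u ∂unif, (0 : ℝ) < u := by
      rw [unif, ← restrict_Ioc_eq_restrict_Icc]
      exact (ae_restrict_mem measurableSet_Ioc).mono fun u hu => hu.1
    have h2 := ae_leafWt_pos ν r (Fin.tail m) (Fin.tail n)
    have h : ∀ᵐ z ∂unif.prod (ν.prod (cascLaw ν r (Fin.tail n))),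
        0 < z.1 ∧ ∀ α, 0 < leafWt r (Fin.tail m) (Fin.tail n) z.2.2 α :=
      (Measure.quasiMeasurePreserving_fst.ae h1).and
        ((Measure.quasiMeasurePreserving_snd.comp Measure.quasiMeasurePreserving_snd).ae h2)
    have h' : ∀ᵐ t ∂cascLaw ν (r + 1) n, ∀ k, 0 < (t k).1 ∧
        ∀ α, 0 < leafWt r (Fin.tail m) (Fin.tail n) (t k).2.2 α :=
      ae_all_iff.2 fun k => (Measure.tendsto_eval_ae_ae (i := k)
        (μ := fun _ : Fin (n 0) => unif.prod (ν.prod (cascLaw ν r (Fin.tail n))))).eventually h
    filter_upwards [h'] with t ht α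
    have hn : 0 < (n 0 : ℝ) := by exact_mod_cast Fin.pos (α 0)
    exact mul_pos (Real.rpow_pos_of_pos (mul_pos hn (ht _).1) _) ((ht _).2 _)

/-- A tree with product marks from a weight tree and one tree per coordinate. -/
def combine {ι : Type} : (r : ℕ) → (n : Fin r → ℕ) →
    CascTree Unit r n × (ι → CascTree β r n) → CascTree (ι → β) r n
  | 0, _, _ => ()
  | r + 1, n, z => fun k => ((z.1 k).1, fun i => (z.2 i k).2.1,
      combine r (Fin.tail n) ((z.1 k).2.2, fun i => (z.2 i k).2.2))

omit [MeasurableSpace β] in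
theorem leafWt_combine {ι : Type} : ∀ (r : ℕ) (m : Fin r → ℝ) (n : Fin r → ℕ)
    (z : CascTree Unit r n × (ι → CascTree β r n)) (α : Leaf n),
    leafWt r m n (combine r n z) α = leafWt r m n z.1 α
  | 0, _, _, _, _ => rfl
  | r + 1, m, n, z, α => by
    simp only [leafWt, combine]
    exact congrArg _ (leafWt_combine r (Fin.tail m) (Fin.tail n) _ _)

omit [MeasurableSpace β] in
theorem leafMarks_combine {ι : Type} : ∀ (r : ℕ) (n : Fin r → ℕ)
    (z : CascTree Unit r n × (ι → CascTree β r n)) (α : Leaf n) (p : Fin r) (i : ι),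
    leafMarks r n (combine r n z) α p i = leafMarks r n (z.2 i) α p
  | 0, _, _, _, p, _ => p.elim0
  | r + 1, n, z, α, p, i => by
    cases p using Fin.cases with
    | zero => simp [leafMarks, combine]
    | succ p =>
      simp only [leafMarks, combine, Fin.cons_succ]
      exact leafMarks_combine r (Fin.tail n) _ _ p i

theorem mp_shuffle {a b c d : Type} [MeasurableSpace a] [MeasurableSpace b] [MeasurableSpace c]
    [MeasurableSpace d] (μ : Measure a) (ν : Measure b) (ρ : Measure c) (σ : Measure d)
    [IsProbabilityMeasure μ] [IsProbabilityMeasure ν] [IsProbabilityMeasure ρ]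
    [IsProbabilityMeasure σ] :
    MeasurePreserving (fun z : (a × b) × (c × d) => (z.1.1, z.2.1, z.1.2, z.2.2))
      ((μ.prod ν).prod (ρ.prod σ)) (μ.prod (ρ.prod (ν.prod σ))) := by
  have h1 := measurePreserving_prodAssoc μ ν (ρ.prod σ)
  have h2 := ((measurePreserving_prodAssoc ρ ν σ).comp
    ((Measure.measurePreserving_swap (μ := ν) (ν := ρ)).prod (MeasurePreserving.id σ))).comp
    (measurePreserving_prodAssoc ν ρ σ).symm
  exact ((MeasurePreserving.id μ).prod h2).comp h1

theorem mp_combine {ι : Type} [Fintype ι] (ν : Measure β) [IsProbabilityMeasure ν] :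
    ∀ (r : ℕ) (n : Fin r → ℕ), MeasurePreserving (combine (ι := ι) r n)
      ((cascLaw (Measure.dirac ()) r n).prod (Measure.pi fun _ : ι => cascLaw ν r n))
      (cascLaw (Measure.pi fun _ : ι => ν) r n)
  | 0, n => by
    refine ⟨measurable_const, ?_⟩
    change Measure.map (fun _ => ()) _ = Measure.dirac ()
    rw [Measure.map_const]
    simp
  | r + 1, n => by
    have ih := mp_combine (ι := ι) ν r (Fin.tail n)
    set A := unif.prod ((Measure.dirac ()).prod (cascLaw (Measure.dirac ()) r (Fin.tail n)))
      with hA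
    set B := unif.prod (ν.prod (cascLaw ν r (Fin.tail n))) with hB
    have hA' : MeasurePreserving (fun z : ℝ × Unit × CascTree Unit r (Fin.tail n) => (z.1, z.2.2))
        A (unif.prod (cascLaw (Measure.dirac ()) r (Fin.tail n))) :=
      (MeasurePreserving.id unif).prod measurePreserving_snd
    have hB' : MeasurePreserving
        (fun z : ι → ℝ × β × CascTree β r (Fin.tail n) =>
          ((fun i => (z i).2.1), fun i => (z i).2.2))
        (Measure.pi fun _ => B) ((Measure.pi fun _ : ι => ν).prod
          (Measure.pi fun _ : ι => cascLaw ν r (Fin.tail n))) :=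
      (measurePreserving_arrowProdEquivProdArrow β (CascTree β r (Fin.tail n)) ι (fun _ => ν)
        fun _ => cascLaw ν r (Fin.tail n)).comp
        (mp_pi (measurePreserving_snd (μ := unif) (ν := ν.prod (cascLaw ν r (Fin.tail n)))))
    have hstep := ((MeasurePreserving.id unif).prod
      ((MeasurePreserving.id (Measure.pi fun _ : ι => ν)).prod ih)).comp
      ((mp_shuffle unif (cascLaw (Measure.dirac ()) r (Fin.tail n))
        (Measure.pi fun _ : ι => ν) (Measure.pi fun _ : ι => cascLaw ν r (Fin.tail n))).comp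
        (hA'.prod hB'))
    exact ((mp_pi (ι := Fin (n 0)) hstep).comp (mp_zip A (Measure.pi fun _ : ι => B))).comp
      ((MeasurePreserving.id (Measure.pi fun _ : Fin (n 0) => A)).prod
        (mp_flip (ι := ι) (κ := Fin (n 0)) B))

end

end Vale.Agent.P168.Upper
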