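import Vale.Agent.P168.Statements

/-! Bounded convergence along `cascFilter`. -/

open MeasureTheory Filter
open scoped ENNReal Topology

namespace Vale.Agent.P168.Upper

variable {X : Type} [MeasurableSpace X]

theorem eventually_cascFilter_succ {r : ℕ} {P : (Fin (r + 1) → ℕ) → Prop} :
    (∀ᶠ n in cascFilter (r + 1), P n) ↔
      ∀ᶠ n₀ in atTop, ∀ᶠ n in cascFilter r, P (Fin.cons n₀ n) := Iff.rfl

/-- Sets which are left eventually, pointwise, have eventually small measure. -/
theorem eventually_small (μ : Measure X) [IsFiniteMeasure μ] :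
    ∀ (r : ℕ) (S : (Fin r → ℕ) → Set X), (∀ n, MeasurableSet (S n)) →
      MeasurableSet {x | ∀ᶠ n in cascFilter r, x ∉ S n} ∧
        ∀ η > (0 : ℝ), ∀ᶠ n in cascFilter r,
          μ.real (S n) ≤ μ.real {x | ∀ᶠ n in cascFilter r, x ∉ S n}ᶜ + η
  | 0, S, hS => by
    have e : {x | ∀ᶠ n in cascFilter 0, x ∉ S n} = (S Fin.elim0)ᶜ := by
      ext x
      simp [cascFilter]
    rw [e]
    refine ⟨(hS _).compl, fun η hη => ?_⟩
    simp only [cascFilter, eventually_pure, compl_compl]
    linarith
  | r + 1, S, hS => by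
    set G : ℕ → Set X := fun n₀ => {x | ∀ᶠ n in cascFilter r, x ∉ S (Fin.cons n₀ n)} with hG
    have hrec : ∀ n₀, MeasurableSet (G n₀) ∧ ∀ η > (0 : ℝ), ∀ᶠ n in cascFilter r,
        μ.real (S (Fin.cons n₀ n)) ≤ μ.real (G n₀)ᶜ + η := fun n₀ =>
      eventually_small μ r (fun n => S (Fin.cons n₀ n)) fun n => hS _
    set T : ℕ → Set X := fun N₀ => ⋂ n₀ ≥ N₀, G n₀ with hT
    have e : {x | ∀ᶠ n in cascFilter (r + 1), x ∉ S n} = ⋃ N₀, T N₀ := by
      ext x
      simp [eventually_cascFilter_succ, hT, hG, eventually_atTop]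
    rw [e]
    have hTm : ∀ N₀, MeasurableSet (T N₀) := fun N₀ =>
      MeasurableSet.iInter fun n₀ => MeasurableSet.iInter fun _ => (hrec n₀).1
    refine ⟨MeasurableSet.iUnion hTm, fun η hη => ?_⟩
    have hmono : Monotone T := fun a b hab x hx => by
      simp only [hT, Set.mem_iInter] at hx ⊢
      exact fun n₀ hn₀ => hx n₀ (hab.trans hn₀)
    have hlim : Tendsto (fun N₀ => μ.real (T N₀)ᶜ) atTop (𝓝 (μ.real (⋃ N₀, T N₀)ᶜ)) := by
      simp only [measureReal_compl (hTm _), measureReal_compl (MeasurableSet.iUnion hTm)]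
      exact ((ENNReal.tendsto_toReal (measure_ne_top _ _)).comp
        (tendsto_measure_iUnion_atTop hmono)).const_sub _
    rw [eventually_cascFilter_succ]
    filter_upwards [hlim.eventually (eventually_le_nhds (lt_add_of_pos_right _ (half_pos hη)))]
      with n₀ hn₀
    filter_upwards [(hrec n₀).2 (η / 2) (half_pos hη)] with n hn
    have hsub : μ.real (G n₀)ᶜ ≤ μ.real (T n₀)ᶜ := by
      refine measureReal_mono (Set.compl_subset_compl.2 fun x hx => ?_)
      simp only [hT, Set.mem_iInter] at hx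
      exact hx n₀ le_rfl
    linarith

/-- Bounded convergence along `cascFilter`. -/
theorem tendsto_integral_cascFilter (μ : Measure X) [IsProbabilityMeasure μ] {r : ℕ}
    (F : (Fin r → ℕ) → X → ℝ) (G : X → ℝ) (C : ℝ) (hF : ∀ n, Measurable (F n))
    (hG : Measurable G) (hbF : ∀ n x, |F n x| ≤ C) (hbG : ∀ x, |G x| ≤ C)
    (h : ∀ x, Tendsto (fun n => F n x) (cascFilter r) (𝓝 (G x))) :
    Tendsto (fun n => ∫ x, F n x ∂μ) (cascFilter r) (𝓝 (∫ x, G x ∂μ)) := by
  rw [Metric.tendsto_nhds]
  intro ε hε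
  set S : (Fin r → ℕ) → Set X := fun n => {x | ε / 4 ≤ |F n x - G x|} with hS
  have hSm : ∀ n, MeasurableSet (S n) := fun n =>
    measurableSet_le measurable_const ((hF n).sub hG).abs
  have hfull : {x | ∀ᶠ n in cascFilter r, x ∉ S n} = Set.univ := by
    refine Set.eq_univ_iff_forall.2 fun x => ?_
    filter_upwards [Metric.tendsto_nhds.1 (h x) (ε / 4) (by positivity)] with n hn
    simpa [hS, Real.dist_eq] using hn
  set D := 8 * (|C| + 1) with hD
  have hDpos : 0 < D := by positivity
  have hev := (eventually_small μ r S hSm).2 (ε / D) (by positivity)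
  rw [hfull, Set.compl_univ, measureReal_empty, zero_add] at hev
  filter_upwards [hev] with n hn
  have hiF : Integrable (F n) μ := Integrable.of_bound (hF n).aestronglyMeasurable C
    (ae_of_all _ (hbF n))
  have hiG : Integrable G μ := Integrable.of_bound hG.aestronglyMeasurable C (ae_of_all _ hbG)
  have hpt : ∀ x, |F n x - G x| ≤ ε / 4 + (S n).indicator (fun _ => 2 * |C|) x := fun x => by
    by_cases hx : x ∈ S n
    · rw [Set.indicator_of_mem hx]
      have h2 : |F n x - G x| ≤ 2 * |C| := (abs_sub _ _).trans (by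
        linarith [(hbF n x).trans (le_abs_self C), (hbG x).trans (le_abs_self C)])
      linarith
    · rw [Set.indicator_of_notMem hx, add_zero]
      exact le_of_lt (not_le.1 hx)
  rw [Real.dist_eq, ← integral_sub hiF hiG]
  refine lt_of_le_of_lt ((abs_integral_le_integral_abs).trans (integral_mono (hiF.sub hiG).abs
    ((integrable_const (ε / 4)).add ((integrable_const _).indicator (hSm n))) hpt)) ?_
  simp only [Pi.add_apply]
  rw [integral_add (integrable_const _) ((integrable_const _).indicator (hSm n)),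
    integral_indicator_const _ (hSm n)]
  simp only [integral_const, probReal_univ, smul_eq_mul, one_mul]
  have h3 : μ.real (S n) * (2 * |C|) ≤ ε / D * (2 * |C|) :=
    mul_le_mul_of_nonneg_right hn (by positivity)
  have h4 : ε / D * (2 * |C|) ≤ ε / 4 := by
    rw [div_mul_eq_mul_div, div_le_div_iff₀ hDpos (by norm_num)]
    nlinarith [abs_nonneg C]
  linarith

theorem cascFilter_neBot : ∀ r : ℕ, (cascFilter r).NeBot
  | 0 => by unfold cascFilter; infer_instance
  | r + 1 => by
    refine ⟨fun h => ?_⟩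
    have h1 : ∀ᶠ n₀ in atTop, ∀ᶠ n in cascFilter r, False :=
      eventually_cascFilter_succ.1 (h ▸ eventually_bot (p := fun _ => False))
    have := cascFilter_neBot r
    exact eventually_const.1 (h1.mono fun _ h2 => eventually_const.1 h2)

end Vale.Agent.P168.Upper
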