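import Vale.Agent.P168.Statements
import Vale.Agent.P168.Upper.Trees

/-! Nested means: change of marks, factorisation, and comparison with `nestedMean`. -/

open MeasureTheory ProbabilityTheory
open scoped BigOperators

namespace Vale.Agent.P168.Upper

noncomputable section

variable {β γ : Type} [MeasurableSpace β] [MeasurableSpace γ]

theorem measurable_genNested (ν : Measure β) [IsProbabilityMeasure ν] :
    ∀ {r : ℕ} (m : Fin r → ℝ) {P : Type} [MeasurableSpace P] (Y : P → (Fin r → β) → ℝ),
      Measurable (Function.uncurry Y) → Measurable fun p => genNested ν m (Y p)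
  | 0, m, P, _, Y, hY => hY.comp (measurable_id.prodMk measurable_const)
  | r + 1, m, P, _, Y, hY => by
    have hcons : Measurable fun q : (P × β) × (Fin r → β) =>
        (q.1.1, (Fin.cons q.1.2 q.2 : Fin (r + 1) → β)) := by
      refine (measurable_fst.comp measurable_fst).prodMk (measurable_pi_lambda _ fun i => ?_)
      cases i using Fin.cases with
      | zero =>
        simp only [Fin.cons_zero]
        exact measurable_snd.comp measurable_fst
      | succ i =>
        simp only [Fin.cons_succ]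
        exact (measurable_pi_apply i).comp measurable_snd
    have h := (measurable_genNested ν (Fin.tail m) (P := P × β)
      (fun q ω => Y q.1 (Fin.cons q.2 ω)) (hY.comp hcons)).pow_const (m 0)
    exact (h.stronglyMeasurable.integral_prod_right' (ν := ν)).measurable.pow_const (1 / m 0)

theorem genNested_nonneg (ν : Measure β) :
    ∀ {r : ℕ} (m : Fin r → ℝ) (Y : (Fin r → β) → ℝ), (∀ ω, 0 ≤ Y ω) → 0 ≤ genNested ν m Y
  | 0, _, _, h => h _
  | _ + 1, m, Y, h => Real.rpow_nonneg (integral_nonneg fun b =>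
      Real.rpow_nonneg (genNested_nonneg ν (Fin.tail m) _ fun ω => h _) _) _

theorem genNested_bounds (ν : Measure β) [IsProbabilityMeasure ν] :
    ∀ {r : ℕ} (m : Fin r → ℝ), (∀ i, 0 < m i) → ∀ (Y : (Fin r → β) → ℝ) {lo hi : ℝ},
      Measurable Y → 0 < lo → (∀ ω, lo ≤ Y ω ∧ Y ω ≤ hi) →
        lo ≤ genNested ν m Y ∧ genNested ν m Y ≤ hi
  | 0, _, _, Y, _, _, _, _, h => h _
  | r + 1, m, hm, Y, lo, hi, hY, hlo, h => by
    have hm' : ∀ i, 0 < Fin.tail m i := fun i => hm i.succ
    have hcons : ∀ b : β, Measurable fun ω : Fin r → β => (Fin.cons b ω : Fin (r + 1) → β) :=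
      fun b => measurable_pi_lambda _ fun i => by
        cases i using Fin.cases with
        | zero => simp [measurable_const]
        | succ i => simpa using measurable_pi_apply i
    have hb : ∀ b, lo ^ m 0 ≤ genNested ν (Fin.tail m) (fun ω => Y (Fin.cons b ω)) ^ m 0 ∧
        genNested ν (Fin.tail m) (fun ω => Y (Fin.cons b ω)) ^ m 0 ≤ hi ^ m 0 := fun b => by
      obtain ⟨h1, h2⟩ := genNested_bounds ν (Fin.tail m) hm' (fun ω => Y (Fin.cons b ω))
        (hY.comp (hcons b)) hlo fun ω => h _
      exact ⟨Real.rpow_le_rpow hlo.le h1 (hm 0).le,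
        Real.rpow_le_rpow (hlo.le.trans h1) h2 (hm 0).le⟩
    have hmeas : Measurable fun b => genNested ν (Fin.tail m) (fun ω => Y (Fin.cons b ω)) ^ m 0 := by
      refine (measurable_genNested ν (Fin.tail m) (fun b ω => Y (Fin.cons b ω)) ?_).pow_const _
      refine hY.comp (measurable_pi_lambda _ fun i => ?_)
      cases i using Fin.cases with
      | zero => simp [measurable_fst]
      | succ i =>
        simp only [Fin.cons_succ]
        exact (measurable_pi_apply i).comp measurable_snd
    have hint : Integrable (fun b => genNested ν (Fin.tail m) (fun ω => Y (Fin.cons b ω)) ^ m 0) ν :=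
      Integrable.of_bound hmeas.aestronglyMeasurable (hi ^ m 0) (ae_of_all _ fun b => by
        rw [Real.norm_eq_abs, abs_of_nonneg ((Real.rpow_nonneg hlo.le _).trans (hb b).1)]
        exact (hb b).2)
    have h1 : lo ^ m 0 ≤ ∫ b, genNested ν (Fin.tail m) (fun ω => Y (Fin.cons b ω)) ^ m 0 ∂ν := by
      simpa using integral_mono (integrable_const _) hint fun b => (hb b).1
    have h2 : ∫ b, genNested ν (Fin.tail m) (fun ω => Y (Fin.cons b ω)) ^ m 0 ∂ν ≤ hi ^ m 0 := by
      simpa using integral_mono hint (integrable_const _) fun b => (hb b).2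
    have hp : ∀ t : ℝ, 0 ≤ t → (t ^ m 0) ^ (1 / m 0) = t := fun t ht => by
      rw [← Real.rpow_mul ht, mul_one_div, div_self (hm 0).ne', Real.rpow_one]
    have hhi : 0 ≤ hi := hlo.le.trans ((h fun _ => Classical.choice
      (nonempty_of_isProbabilityMeasure ν)).1.trans (h _).2)
    constructor
    · calc lo = (lo ^ m 0) ^ (1 / m 0) := (hp lo hlo.le).symm
        _ ≤ _ := Real.rpow_le_rpow (Real.rpow_nonneg hlo.le _) h1 (one_div_pos.2 (hm 0)).le
    · calc genNested ν m Y ≤ (hi ^ m 0) ^ (1 / m 0) := Real.rpow_le_rpow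
            ((Real.rpow_nonneg hlo.le _).trans h1) h2 (one_div_pos.2 (hm 0)).le
        _ = hi := hp hi hhi

/-- Change of marks. -/
theorem genNested_map (ν : Measure β) (ν' : Measure γ) [IsProbabilityMeasure ν]
    [IsProbabilityMeasure ν'] {f : β → γ} (hf : MeasurePreserving f ν ν') :
    ∀ {r : ℕ} (m : Fin r → ℝ) (Y : (Fin r → γ) → ℝ), Measurable Y →
      genNested ν m (fun ω => Y fun p => f (ω p)) = genNested ν' m Y
  | 0, m, Y, _ => congrArg Y (funext fun p => p.elim0)
  | r + 1, m, Y, hY => by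
    have hcons : Measurable fun q : γ × (Fin r → γ) => (Fin.cons q.1 q.2 : Fin (r + 1) → γ) :=
      measurable_pi_lambda _ fun i => by
        cases i using Fin.cases with
        | zero => simp [measurable_fst]
        | succ i =>
          simp only [Fin.cons_succ]
          exact (measurable_pi_apply i).comp measurable_snd
    have ih : ∀ b : β, genNested ν (Fin.tail m) (fun ω => Y fun p => f (Fin.cons (α := fun _ => β) b ω p)) =
        genNested ν' (Fin.tail m) fun η => Y (Fin.cons (f b) η) := fun b => by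
      rw [← genNested_map ν ν' hf (Fin.tail m) (fun η => Y (Fin.cons (f b) η))
        (hY.comp (hcons.comp (measurable_const.prodMk measurable_id)))]
      congr 1
      funext ω
      congr 1
      funext p
      cases p using Fin.cases <;> simp
    have hG : Measurable fun b' => genNested ν' (Fin.tail m) (fun η => Y (Fin.cons b' η)) ^ m 0 :=
      (measurable_genNested ν' (Fin.tail m) (fun b' η => Y (Fin.cons b' η))
        (hY.comp hcons)).pow_const _
    simp only [genNested, ih]
    rw [integral_mp hf hG]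

/-- Factorisation over independent marks. -/
theorem genNested_prod (ν : Measure β) (ν' : Measure γ) [IsProbabilityMeasure ν]
    [IsProbabilityMeasure ν'] :
    ∀ {r : ℕ} (m : Fin r → ℝ) (Y : (Fin r → β) → ℝ) (Z : (Fin r → γ) → ℝ),
      (∀ ω, 0 ≤ Y ω) → (∀ η, 0 ≤ Z η) →
      genNested (ν.prod ν') m (fun θ => (Y fun p => (θ p).1) * Z fun p => (θ p).2) =
        genNested ν m Y * genNested ν' m Z
  | 0, m, Y, Z, _, _ => by
    simp only [genNested]
    congr 2 <;> funext p <;> exact p.elim0
  | r + 1, m, Y, Z, hY, hZ => by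
    have ih : ∀ q : β × γ, genNested (ν.prod ν') (Fin.tail m) (fun θ =>
        (Y fun p => (Fin.cons (α := fun _ => β × γ) q θ p).1) *
          Z fun p => (Fin.cons (α := fun _ => β × γ) q θ p).2) =
        genNested ν (Fin.tail m) (fun ω => Y (Fin.cons q.1 ω)) *
          genNested ν' (Fin.tail m) (fun η => Z (Fin.cons q.2 η)) := fun q => by
      rw [← genNested_prod ν ν' (Fin.tail m) (fun ω => Y (Fin.cons q.1 ω))
        (fun η => Z (Fin.cons q.2 η)) (fun _ => hY _) fun _ => hZ _]
      congr 1
      funext θ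
      congr 2 <;> funext p <;> cases p using Fin.cases <;> simp
    have hA : ∀ b, 0 ≤ genNested ν (Fin.tail m) (fun ω => Y (Fin.cons b ω)) := fun b =>
      genNested_nonneg _ _ _ fun _ => hY _
    have hB : ∀ b, 0 ≤ genNested ν' (Fin.tail m) (fun η => Z (Fin.cons b η)) := fun b =>
      genNested_nonneg _ _ _ fun _ => hZ _
    simp only [genNested, ih]
    rw [← Real.mul_rpow (integral_nonneg fun b => Real.rpow_nonneg (hA b) _)
      (integral_nonneg fun b => Real.rpow_nonneg (hB b) _), ← integral_prod_mul]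
    simp only [Real.mul_rpow (hA _) (hB _)]

/-- Uniform marks indexed by `ι`. -/
abbrev piUnif (ι : Type) [Fintype ι] : Measure (ι → ℝ) := Measure.pi fun _ => unif

/-- `nestedMean` is a nested mean with product marks. -/
theorem nestedMean_eq {ι : Type} [Fintype ι] :
    ∀ {r : ℕ} (m : Fin r → ℝ) (Y : (ι → Fin r → ℝ) → ℝ),
      nestedMean m Y = genNested (piUnif ι) m fun ω => Y fun i p => ω p i
  | 0, m, Y => congrArg Y (funext fun i => funext fun p => p.elim0)
  | r + 1, m, Y => by
    simp only [nestedMean, genNested]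
    congr 1
    refine integral_congr_ae (ae_of_all _ fun w => ?_)
    simp only [nestedMean_eq (Fin.tail m)]
    congr 2
    funext ω
    congr 1
    funext i p
    cases p using Fin.cases <;> simp

theorem genNested_proj {ι κ : Type} [Fintype ι] [Fintype κ] {g : κ → ι}
    (hg : Function.Injective g) {r : ℕ} (m : Fin r → ℝ) (Y : (Fin r → κ → ℝ) → ℝ)
    (hY : Measurable Y) :
    genNested (piUnif ι) m (fun ω => Y fun p a => ω p (g a)) = genNested (piUnif κ) m Y :=
  genNested_map _ _ (mp_precomp unif hg) m Y hY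

theorem genNested_split {ι κ₁ κ₂ : Type} [Fintype ι] [Fintype κ₁] [Fintype κ₂] (g₁ : κ₁ → ι)
    (g₂ : κ₂ → ι) (hg : Function.Injective (Sum.elim g₁ g₂)) {r : ℕ} (m : Fin r → ℝ)
    (Y : (Fin r → κ₁ → ℝ) → ℝ) (Z : (Fin r → κ₂ → ℝ) → ℝ) (hY : Measurable Y) (hZ : Measurable Z)
    (hY0 : ∀ ω, 0 ≤ Y ω) (hZ0 : ∀ ω, 0 ≤ Z ω) :
    genNested (piUnif ι) m (fun ω => (Y fun p a => ω p (g₁ a)) * Z fun p a => ω p (g₂ a)) =
      genNested (piUnif κ₁) m Y * genNested (piUnif κ₂) m Z := by
  have hmp : MeasurePreserving (fun x : ι → ℝ => (fun a => x (g₁ a), fun a => x (g₂ a)))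
      (piUnif ι) ((piUnif κ₁).prod (piUnif κ₂)) :=
    (measurePreserving_sumPiEquivProdPi fun _ : κ₁ ⊕ κ₂ => unif).comp (mp_precomp unif hg)
  rw [← genNested_prod (piUnif κ₁) (piUnif κ₂) m Y Z hY0 hZ0]
  refine genNested_map _ _ hmp m (fun θ => (Y fun p => (θ p).1) * Z fun p => (θ p).2) ?_
  exact (hY.comp (measurable_pi_lambda _ fun p => measurable_fst.comp (measurable_pi_apply p))).mul
    (hZ.comp (measurable_pi_lambda _ fun p => measurable_snd.comp (measurable_pi_apply p)))

/-- Factorisation over a family of disjoint sets of marks. -/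
theorem genNested_family {I ι : Type} [Fintype ι] (κ : I → Type) [∀ i, Fintype (κ i)]
    (g : ∀ i, κ i → ι) (hg : ∀ i, Function.Injective (g i))
    (hd : ∀ i j, i ≠ j → ∀ a b, g i a ≠ g j b) {r : ℕ} (m : Fin r → ℝ)
    (Y : ∀ i, (Fin r → κ i → ℝ) → ℝ) (hY : ∀ i, Measurable (Y i)) (hY0 : ∀ i ω, 0 ≤ Y i ω)
    (hone : genNested (piUnif ι) m (fun _ => (1 : ℝ)) = 1) (s : Finset I) :
    genNested (piUnif ι) m (fun ω => ∏ i ∈ s, Y i fun p a => ω p (g i a)) =
      ∏ i ∈ s, genNested (piUnif (κ i)) m (Y i) := by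
  classical
  induction s using Finset.induction_on with
  | empty => simpa using hone
  | insert j s hj ih =>
    rw [Finset.prod_insert hj, ← ih]
    have hnot : ∀ i : {i // i ∈ s}, ∀ a, g i a ∉ Set.range (g j) := fun i a ⟨b, hb⟩ =>
      hd j i (fun e => hj (e ▸ i.2)) b a hb
    let Z : (Fin r → {a : ι // a ∉ Set.range (g j)} → ℝ) → ℝ := fun η =>
      ∏ i ∈ s.attach, Y i fun p a => η p ⟨g i a, hnot i a⟩
    have hZm : Measurable Z := Finset.measurable_prod _ fun i _ => (hY i).comp
      (measurable_pi_lambda _ fun p => measurable_pi_lambda _ fun a =>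
        (measurable_pi_apply _).comp (measurable_pi_apply p))
    have e : ∀ ω : Fin r → ι → ℝ, ∏ i ∈ s, Y i (fun p a => ω p (g i a)) =
        Z fun p a => ω p a.1 := fun ω =>
      (Finset.prod_attach s fun i => Y i fun p a => ω p (g i a)).symm
    simp only [Finset.prod_insert hj, e]
    have hinj : Function.Injective (Sum.elim (g j)
        (Subtype.val : {a : ι // a ∉ Set.range (g j)} → ι)) :=
      (hg j).sumElim Subtype.val_injective fun a b h => b.2 ⟨a, h⟩
    rw [genNested_split (g j) Subtype.val hinj m (Y j) Z (hY j) hZm (hY0 j)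
      (fun η => Finset.prod_nonneg fun i _ => hY0 _ _),
      genNested_proj Subtype.val_injective m Z hZm]

theorem genNested_one (ν : Measure β) [IsProbabilityMeasure ν] {r : ℕ} (m : Fin r → ℝ)
    (hm : ∀ i, 0 < m i) : genNested ν m (fun _ => (1 : ℝ)) = 1 := by
  obtain ⟨h1, h2⟩ := genNested_bounds ν m hm (fun _ => (1 : ℝ)) measurable_const one_pos
    fun _ => ⟨le_rfl, le_rfl⟩
  exact le_antisymm h2 h1

theorem genNested_const_mul (ν : Measure β) {C : ℝ} (hC : 0 ≤ C) :
    ∀ {r : ℕ} (m : Fin r → ℝ), (∀ i, 0 < m i) → ∀ Y : (Fin r → β) → ℝ, (∀ ω, 0 ≤ Y ω) →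
      genNested ν m (fun ω => C * Y ω) = C * genNested ν m Y
  | 0, _, _, _, _ => rfl
  | r + 1, m, hm, Y, hY => by
    have ih : ∀ b, genNested ν (Fin.tail m) (fun ω => C * Y (Fin.cons b ω)) =
        C * genNested ν (Fin.tail m) (fun ω => Y (Fin.cons b ω)) := fun b =>
      genNested_const_mul ν hC (Fin.tail m) (fun i => hm i.succ) _ fun _ => hY _
    have hA : ∀ b, 0 ≤ genNested ν (Fin.tail m) (fun ω => Y (Fin.cons b ω)) := fun b =>
      genNested_nonneg _ _ _ fun _ => hY _
    simp only [genNested, ih, Real.mul_rpow hC (hA _)]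
    rw [integral_const_mul, Real.mul_rpow (Real.rpow_nonneg hC _)
      (integral_nonneg fun b => Real.rpow_nonneg (hA b) _), ← Real.rpow_mul hC, mul_one_div,
      div_self (hm 0).ne', Real.rpow_one]

end

end Vale.Agent.P168.Upper
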