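import Vale.Agent.P168.Upper.Factor

/-! Averages of the factorised limits, and the Poisson average of the comparison. -/

open MeasureTheory ProbabilityTheory Finset
open scoped BigOperators

namespace Vale.Agent.P168.Upper

noncomputable section

variable (νb : Measure ℝ) (νf : Measure (Bool → ℝ)) (Q : Measure ℝ) {K r : ℕ}

/-- The mean of `log` of the partition function with `i` clauses. -/
def clMean (K N : ℕ) (c H : ℝ) (i : ℕ) : ℝ :=
  ∫ w : Fin i → ClD K N, ∫ h : Fin N → ℝ, clLog c H h i w ∂(Measure.pi fun _ => Q)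
    ∂(Measure.pi fun _ => clLaw νb νf K N)

/-- The mean of the site functional with `i` factors. -/
def siMean (K : ℕ) (m : Fin r → ℝ) (x : (Fin (r + 1) → ℝ) → ℝ) (c H : ℝ) (i : ℕ) : ℝ :=
  ∫ w : Fin i → SiD K, ∫ h, siLog m x c H h i w ∂Q ∂(Measure.pi fun _ => siLaw νb νf K)

/-- The mean of the edge functional. -/
def edMean (K : ℕ) (m : Fin r → ℝ) (x : (Fin (r + 1) → ℝ) → ℝ) (c : ℝ) : ℝ :=
  ∫ w, edLog m x c w ∂edLaw νb νf K

variable {νb νf Q} [IsProbabilityMeasure νb] [IsProbabilityMeasure νf] [IsProbabilityMeasure Q]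
  {N : ℕ} [NeZero K] [NeZero N] {m : Fin r → ℝ} {x : (Fin (r + 1) → ℝ) → ℝ} {c H : ℝ}

theorem integral_kind (a : ℝ) :
    ∫ l : Fin K, (if decide (l.val = 0) = true then a else 0) ∂unifFin (Fin K) = (K : ℝ)⁻¹ * a ∧
      ∫ l : Fin K, (if decide (l.val = 0) = true then 0 else a) ∂unifFin (Fin K) =
        ((K : ℝ) - 1) / K * a := by
  obtain ⟨K', rfl⟩ : ∃ K', K = K' + 1 := ⟨K - 1, by have := NeZero.pos K; omega⟩
  rw [integral_unifFin, integral_unifFin, Fintype.card_fin, Fin.sum_univ_succ, Fin.sum_univ_succ]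
  constructor
  · simp
  · simp
    ring

theorem measurable_isCl : Measurable (isCl (K := K) (N := N)) :=
  (measurable_of_countable fun l : Fin K => decide (l.val = 0)).comp measurable_fst

theorem measurable_atSite (i : Fin N) : Measurable (atSite (K := K) i) :=
  (measurable_of_countable fun q : Fin K × (Fin K → Fin N) => decide (q.2 q.1 = i)).comp
    (f := fun s : Slot0 K N => (s.1, s.2.2.1))
    (measurable_fst.prodMk (measurable_fst.comp (measurable_snd.comp measurable_snd)))

theorem measurable_projC : Measurable (projC (K := K) (N := N)) :=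
  (measurable_fst.comp measurable_snd).prodMk
    (measurable_fst.comp (measurable_snd.comp measurable_snd))

theorem measurable_projE : Measurable (projE (K := K) (N := N)) :=
  (measurable_fst.comp measurable_snd).prodMk
    (measurable_snd.comp (measurable_snd.comp measurable_snd))

theorem measurable_projS : Measurable (projS (K := K) (N := N)) :=
  (measurable_fst.prodMk (measurable_fst.comp measurable_snd)).prodMk
    (measurable_snd.comp (measurable_snd.comp measurable_snd))

theorem law_clause (G : ClD K N → ℝ) (hG : Measurable G) :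
    ∫ s, (if isCl s = true then G (projC s) else 0) ∂slot0Law K N νb νf =
      (K : ℝ)⁻¹ * ∫ w, G w ∂clLaw νb νf K N := by
  have e : (fun s : Slot0 K N => if isCl s = true then G (projC s) else 0) = fun s =>
      (if decide (s.1.val = 0) = true then 1 else 0) *
        (fun u : Fac K × ((Fin K → Fin N) × (Fin K → ℝ)) => G (u.1, u.2.1)) s.2 := by
    funext s
    simp [isCl, projC]
  rw [e, slot0Law]
  refine (integral_prod_mul (fun l : Fin K => if decide (l.val = 0) = true then (1 : ℝ) else 0)
    (fun u : Fac K × ((Fin K → Fin N) × (Fin K → ℝ)) => G (u.1, u.2.1))).trans ?_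
  rw [(integral_kind 1).1, mul_one]
  congr 1
  exact integral_mp ((MeasurePreserving.id (facLaw K νb νf)).prod measurePreserving_fst) hG

theorem law_edge (G : EdD K → ℝ) (hG : Measurable G) :
    ∫ s, (if isCl s = true then 0 else G (projE s)) ∂slot0Law K N νb νf =
      ((K : ℝ) - 1) / K * ∫ w, G w ∂edLaw νb νf K := by
  have e : (fun s : Slot0 K N => if isCl s = true then 0 else G (projE s)) = fun s =>
      (if decide (s.1.val = 0) = true then 0 else 1) *
        (fun u : Fac K × ((Fin K → Fin N) × (Fin K → ℝ)) => G (u.1, u.2.2)) s.2 := by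
    funext s
    by_cases h : s.1.val = 0 <;> simp [isCl, projE, h]
  rw [e, slot0Law]
  refine (integral_prod_mul (fun l : Fin K => if decide (l.val = 0) = true then (0 : ℝ) else 1)
    (fun u : Fac K × ((Fin K → Fin N) × (Fin K → ℝ)) => G (u.1, u.2.2))).trans ?_
  rw [(integral_kind 1).2, mul_one]
  congr 1
  exact integral_mp ((MeasurePreserving.id (facLaw K νb νf)).prod measurePreserving_snd) hG

theorem law_site (i : Fin N) (G : SiD K → ℝ) (hG : Measurable G) {C : ℝ} (hC : ∀ w, |G w| ≤ C) :
    ∫ s, (if atSite i s = true then G (projS s) else 0) ∂slot0Law K N νb νf =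
      (N : ℝ)⁻¹ * ∫ w, G w ∂siLaw νb νf K := by
  have hmp : MeasurePreserving
      (fun z : SiD K × (Fin K → Fin N) => ((z.1.1.1, z.1.1.2, z.2, z.1.2) : Slot0 K N))
      ((siLaw νb νf K).prod (Measure.pi fun _ => unifFin (Fin N))) (slot0Law K N νb νf) := by
    have h1 := measurePreserving_prodAssoc ((unifFin (Fin K)).prod (facLaw K νb νf))
      (piUnif (Fin K)) (Measure.pi fun _ : Fin K => unifFin (Fin N))
    have h2 := (MeasurePreserving.id ((unifFin (Fin K)).prod (facLaw K νb νf))).prod
      (Measure.measurePreserving_swap (μ := piUnif (Fin K))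
        (ν := Measure.pi fun _ : Fin K => unifFin (Fin N)))
    have h3 := measurePreserving_prodAssoc (unifFin (Fin K)) (facLaw K νb νf)
      ((Measure.pi fun _ : Fin K => unifFin (Fin N)).prod (piUnif (Fin K)))
    exact h3.comp (h2.comp h1)
  have hm : Measurable fun s : Slot0 K N => if atSite i s = true then G (projS s) else 0 :=
    Measurable.ite (measurable_atSite i (measurableSet_singleton true))
      (hG.comp measurable_projS) measurable_const
  have hint : Integrable (fun z : SiD K × (Fin K → Fin N) =>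
      if decide (z.2 z.1.1.1 = i) = true then G z.1 else 0)
      ((siLaw νb νf K).prod (Measure.pi fun _ => unifFin (Fin N))) := by
    refine Integrable.of_bound ?_ |C| (ae_of_all _ fun z => ?_)
    · have := (hm.comp hmp.measurable).aestronglyMeasurable
        (μ := (siLaw νb νf K).prod (Measure.pi fun _ => unifFin (Fin N)))
      exact this
    · split_ifs
      · exact (hC _).trans (le_abs_self C)
      · simp
  rw [← integral_mp hmp hm]
  change ∫ z : SiD K × (Fin K → Fin N), (if decide (z.2 z.1.1.1 = i) = true then G z.1 else 0)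
    ∂(siLaw νb νf K).prod (Measure.pi fun _ => unifFin (Fin N)) = _
  rw [integral_prod _ hint, ← integral_const_mul]
  simp only [decide_eq_true_eq]
  refine integral_congr_ae (ae_of_all _ fun w => ?_)
  have h := integral_mp (measurePreserving_eval (fun _ : Fin K => unifFin (Fin N)) w.1.1)
    (measurable_of_countable fun a : Fin N => if a = i then G w else 0)
  refine h.trans ?_
  rw [integral_unifFin, Fintype.card_fin, sum_ite_eq']
  simp

theorem limit_true_eq (hm : ∀ i, 0 < m i) (hc : 0 ≤ c) (hc1 : c < 1) (hH : 0 ≤ H)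
    (hx : Measurable x) (hb : ∀ ω, |x ω| ≤ 1) (M : ℕ) :
    ∫ q, Real.log (genNested (piUnif (Fin M × Fin K)) m (Yfun x c H (fun _ => true) q))
        ∂hcLaw νb νf K N M Q =
      ∑ i ∈ range (M + 1), (M.choose i : ℝ) * ((K : ℝ)⁻¹ ^ i * (1 - (K : ℝ)⁻¹) ^ (M - i)) *
          clMean νb νf Q K N c H i + M * (((K : ℝ) - 1) / K * edMean νb νf K m x c) ∧
      |∑ i ∈ range (M + 1), (M.choose i : ℝ) * ((K : ℝ)⁻¹ ^ i * (1 - (K : ℝ)⁻¹) ^ (M - i)) *
          clMean νb νf Q K N c H i| ≤ N * Real.log 2 + N * H + M * Lc c := by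
  obtain ⟨h1, h2, h3⟩ := integral_onList_selImage (Measure.pi fun _ : Fin N => Q)
    (slot0Law K N νb νf) (clLaw νb νf K N) measurable_isCl measurable_projC (K : ℝ)⁻¹
    (fun G hG _ _ => law_clause G hG) (fun h i w => clLog c H h i w)
    (fun i => measurable_clLog i) (Lc_nonneg hc hc1) (fun h i w => abs_clLog_le hc hc1 hH h i w) M
  have hg : Measurable fun s : Slot0 K N =>
      if isCl s = true then 0 else edLog m x c (projE s) :=
    Measurable.ite (measurable_isCl (measurableSet_singleton true)) measurable_const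
      ((measurable_edLog hx).comp measurable_projE)
  have hgb : ∀ s : Slot0 K N, ‖if isCl s = true then 0 else edLog m x c (projE s)‖ ≤ Lc c :=
    fun s => by
      split_ifs
      · simpa using Lc_nonneg hc hc1
      · exact abs_edLog_le hm hc hc1 hx hb _
  have hk : ∀ k, MeasurePreserving (fun q : (Fin N → ℝ) × (Fin M → Slot0 K N) => q.2 k)
      (hcLaw νb νf K N M Q) (slot0Law K N νb νf) := fun k =>
    (measurePreserving_eval (fun _ : Fin M => slot0Law K N νb νf) k).comp measurePreserving_snd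
  have hki : ∀ k, Integrable (fun q : (Fin N → ℝ) × (Fin M → Slot0 K N) =>
      if isCl (q.2 k) = true then 0 else edLog m x c (projE (q.2 k))) (hcLaw νb νf K N M Q) :=
    fun k => Integrable.of_bound (hg.comp (hk k).measurable).aestronglyMeasurable (Lc c)
      (ae_of_all _ fun q => hgb _)
  have h3' : Integrable (fun z : (Fin N → ℝ) × (Fin M → Slot0 K N) =>
      onList (fun i w => clLog c H z.1 i w) (selImage isCl projC z.2)) (hcLaw νb νf K N M Q) := h3
  constructor
  · simp only [log_genNested_true hm hc hc1 hH hx hb]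
    rw [integral_add h3' (integrable_finsetSum _ fun k _ => hki k)]
    congr 1
    rw [integral_finsetSum _ fun k _ => hki k]
    have : ∀ k, ∫ q, (if isCl (q.2 k) = true then 0 else edLog m x c (projE (q.2 k)))
        ∂hcLaw νb νf K N M Q = ((K : ℝ) - 1) / K * edMean νb νf K m x c := fun k =>
      (integral_mp (hk k) hg).trans (law_edge _ (measurable_edLog hx))
    simp [this]
  · have h := norm_integral_le_of_norm_le_const (μ := hcLaw νb νf K N M Q)
      (f := fun z => onList (fun i w => clLog c H z.1 i w) (selImage isCl projC z.2))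
      (C := N * Real.log 2 + N * H + M * Lc c) (ae_of_all _ h2)
    rw [hcLaw, h1, probReal_univ, mul_one] at h
    exact h

theorem limit_false_eq (hm : ∀ i, 0 < m i) (hc : 0 ≤ c) (hc1 : c < 1) (hH : 0 ≤ H)
    (hx : Measurable x) (hb : ∀ ω, |x ω| ≤ 1) (M : ℕ) :
    ∫ q, Real.log (genNested (piUnif (Fin M × Fin K)) m (Yfun x c H (fun _ => false) q))
        ∂hcLaw νb νf K N M Q =
      N * ∑ i ∈ range (M + 1), (M.choose i : ℝ) * ((N : ℝ)⁻¹ ^ i * (1 - (N : ℝ)⁻¹) ^ (M - i)) *
          siMean νb νf Q K m x c H i ∧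
      |∑ i ∈ range (M + 1), (M.choose i : ℝ) * ((N : ℝ)⁻¹ ^ i * (1 - (N : ℝ)⁻¹) ^ (M - i)) *
          siMean νb νf Q K m x c H i| ≤ Real.log 2 + H + M * Lc c := by
  have hmain := fun i : Fin N => integral_onList_selImage Q (slot0Law K N νb νf) (siLaw νb νf K)
    (measurable_atSite i) measurable_projS (N : ℝ)⁻¹
    (fun G hG C hC => law_site i G hG hC) (fun h j w => siLog m x c H h j w)
    (fun j => measurable_siLog hx j) (Lc_nonneg hc hc1)
    (fun h j w => abs_siLog_le hm hc hc1 hH hx hb h j w) M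
  constructor
  · simp only [log_genNested_false hm hc hc1 hH hx hb]
    have hproj : ∀ i : Fin N, MeasurePreserving
        (fun q : (Fin N → ℝ) × (Fin M → Slot0 K N) => (q.1 i, q.2))
        (hcLaw νb νf K N M Q) (Q.prod (Measure.pi fun _ : Fin M => slot0Law K N νb νf)) := fun i =>
      (measurePreserving_eval (fun _ : Fin N => Q) i).prod (MeasurePreserving.id _)
    have hint : ∀ i : Fin N, Integrable (fun q : (Fin N → ℝ) × (Fin M → Slot0 K N) =>
        onList (siLog m x c H (q.1 i)) (selImage (atSite i) projS q.2)) (hcLaw νb νf K N M Q) :=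
      fun i => (hproj i).integrable_comp_of_integrable (hmain i).2.2
    rw [integral_finsetSum _ fun i _ => hint i]
    have hval : ∀ i : Fin N, ∫ q, onList (siLog m x c H (q.1 i)) (selImage (atSite i) projS q.2)
        ∂hcLaw νb νf K N M Q =
        ∑ j ∈ range (M + 1), (M.choose j : ℝ) * ((N : ℝ)⁻¹ ^ j * (1 - (N : ℝ)⁻¹) ^ (M - j)) *
          siMean νb νf Q K m x c H j := fun i => by
      refine Eq.trans ?_ (hmain i).1
      conv_rhs => rw [← (hproj i).map_eq]
      exact (integral_map (hproj i).measurable.aemeasurable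
        ((hproj i).map_eq.symm ▸ (hmain i).2.2.aestronglyMeasurable)).symm
    simp [hval]
  · obtain ⟨h1, h2, -⟩ := hmain ⟨0, NeZero.pos N⟩
    have h := norm_integral_le_of_norm_le_const
      (μ := Q.prod (Measure.pi fun _ : Fin M => slot0Law K N νb νf))
      (f := fun z => onList (siLog m x c H z.1) (selImage (atSite ⟨0, NeZero.pos N⟩) projS z.2))
      (C := Real.log 2 + H + M * Lc c) (ae_of_all _ h2)
    rw [h1, probReal_univ, mul_one] at h
    exact h

theorem le_linear_two_pow {B L : ℝ} (hB : 0 ≤ B) (hL : 0 ≤ L) (i : ℕ) :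
    B + i * L ≤ (B + L) * (2 : ℝ) ^ i := by
  have h1 : (i : ℝ) ≤ (2 : ℝ) ^ i := by exact_mod_cast (Nat.lt_two_pow_self (n := i)).le
  have h2 : (1 : ℝ) ≤ (2 : ℝ) ^ i := one_le_pow₀ one_le_two
  nlinarith [mul_le_mul_of_nonneg_left h1 hL, mul_le_mul_of_nonneg_left h2 hB]

theorem abs_clMean_le (hc : 0 ≤ c) (hc1 : c < 1) (hH : 0 ≤ H) (i : ℕ) :
    |clMean νb νf Q K N c H i| ≤ (N * Real.log 2 + N * H + Lc c) * (2 : ℝ) ^ i := by
  refine le_trans ?_ (le_linear_two_pow (B := N * Real.log 2 + N * H)
    (by positivity) (Lc_nonneg hc hc1) i)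
  have hin : ∀ w : Fin i → ClD K N,
      ‖∫ h, clLog c H h i w ∂(Measure.pi fun _ : Fin N => Q)‖ ≤
        N * Real.log 2 + N * H + i * Lc c := fun w => by
    have h := norm_integral_le_of_norm_le_const (μ := Measure.pi fun _ : Fin N => Q)
      (f := fun h => clLog c H h i w) (ae_of_all _ fun h => abs_clLog_le hc hc1 hH h i w)
    simpa using h
  have h := norm_integral_le_of_norm_le_const (μ := Measure.pi fun _ : Fin i => clLaw νb νf K N)
    (ae_of_all _ hin)
  simpa [clMean] using h

theorem abs_siMean_le (hm : ∀ i, 0 < m i) (hc : 0 ≤ c) (hc1 : c < 1) (hH : 0 ≤ H)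
    (hx : Measurable x) (hb : ∀ ω, |x ω| ≤ 1) (i : ℕ) :
    |siMean νb νf Q K m x c H i| ≤ (Real.log 2 + H + Lc c) * (2 : ℝ) ^ i := by
  refine le_trans ?_ (le_linear_two_pow (B := Real.log 2 + H)
    (by positivity) (Lc_nonneg hc hc1) i)
  have hin : ∀ w : Fin i → SiD K,
      ‖∫ h, siLog m x c H h i w ∂Q‖ ≤ Real.log 2 + H + i * Lc c := fun w => by
    have h := norm_integral_le_of_norm_le_const (μ := Q) (f := fun h => siLog m x c H h i w)
      (ae_of_all _ fun h => abs_siLog_le hm hc hc1 hH hx hb h i w)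
    simpa using h
  have h := norm_integral_le_of_norm_le_const (μ := Measure.pi fun _ : Fin i => siLaw νb νf K)
    (ae_of_all _ hin)
  simpa [siMean] using h

/-- The Poisson average of the comparison. -/
theorem main_ineq (hL : CascadeLogStmt) (hK : Even K) (hm : ∀ i, 0 < m i) (hm1 : ∀ i, m i < 1)
    (hmono : StrictMono m) (hc : 0 ≤ c) (hc1 : c < 1) (hH : 0 ≤ H)
    (hx : Measurable x) (hb : ∀ ω, |x ω| ≤ 1)
    (hpos : ∀ i : ℕ, 1 ≤ i → 0 ≤ ∫ b, (-clip c b) ^ i ∂νb) {lam : ℝ} (hlam : 0 ≤ lam) :
    ∫ n, clMean νb νf Q K N c H n ∂poissonMeasure (lam * N).toNNReal +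
        N * (((K : ℝ) - 1) * lam * edMean νb νf K m x c) ≤
      N * ∫ n, siMean νb νf Q K m x c H n ∂poissonMeasure ((K : ℝ) * lam).toNNReal := by
  set L := (K : ℝ) * lam * N with hLdef
  have hL0 : 0 ≤ L := by positivity
  have hKpos : (0 : ℝ) < K := by exact_mod_cast NeZero.pos K
  have hNpos : (0 : ℝ) < N := by exact_mod_cast NeZero.pos N
  have hK1 : (1 : ℝ) ≤ K := by exact_mod_cast NeZero.pos K
  have hN1 : (1 : ℝ) ≤ N := by exact_mod_cast NeZero.pos N
  set S1 := fun M : ℕ => ∑ i ∈ range (M + 1), (M.choose i : ℝ) *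
    ((K : ℝ)⁻¹ ^ i * (1 - (K : ℝ)⁻¹) ^ (M - i)) * clMean νb νf Q K N c H i with hS1
  set S2 := fun M : ℕ => ∑ i ∈ range (M + 1), (M.choose i : ℝ) *
    ((N : ℝ)⁻¹ ^ i * (1 - (N : ℝ)⁻¹) ^ (M - i)) * siMean νb νf Q K m x c H i with hS2
  set T := ((K : ℝ) - 1) / K * edMean νb νf K m x c with hT
  have hcmp : ∀ M, S1 M + M * T ≤ N * S2 M := fun M => by
    have h := limit_le (νb := νb) (νf := νf) (Q := Q) (K := K) (N := N) hL hK hc hc1 hH hx hb hpos
      m hm hm1 hmono M
    rwa [(limit_true_eq hm hc hc1 hH hx hb M).1, (limit_false_eq hm hc hc1 hH hx hb M).1] at h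
  have i1 : Integrable S1 (poissonMeasure L.toNNReal) :=
    integrable_poisson hL0 fun M => (limit_true_eq (νb := νb) (νf := νf) (Q := Q) (K := K) (N := N)
      hm hc hc1 hH hx hb M).2.trans (le_linear_two_pow (by positivity) (Lc_nonneg hc hc1) M)
  have i2 : Integrable S2 (poissonMeasure L.toNNReal) :=
    integrable_poisson hL0 fun M => (limit_false_eq (νb := νb) (νf := νf) (Q := Q) (K := K) (N := N)
      hm hc hc1 hH hx hb M).2.trans (le_linear_two_pow (by positivity) (Lc_nonneg hc hc1) M)
  have i3 : Integrable (fun M : ℕ => (M : ℝ) * T) (poissonMeasure L.toNNReal) :=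
    integrable_poisson (A := |T|) hL0 fun M => by
      rw [abs_mul, Nat.abs_cast, mul_comm]
      exact mul_le_mul_of_nonneg_left (by exact_mod_cast (Nat.lt_two_pow_self (n := M)).le)
        (abs_nonneg T)
  have h := integral_mono (i1.add i3) (i2.const_mul (N : ℝ)) hcmp
  simp only [Pi.add_apply] at h
  rw [integral_add i1 i3, integral_const_mul, poisson_mean hL0, hS1, hS2,
    poisson_thinning hL0 (by positivity) (inv_le_one_of_one_le₀ hK1) _
      (abs_clMean_le hc hc1 hH),
    poisson_thinning hL0 (by positivity) (inv_le_one_of_one_le₀ hN1) _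
      (abs_siMean_le hm hc hc1 hH hx hb)] at h
  have e1 : (K : ℝ)⁻¹ * L = lam * N := by rw [hLdef]; field_simp
  have e2 : (N : ℝ)⁻¹ * L = (K : ℝ) * lam := by rw [hLdef]; field_simp
  have e3 : L * T = N * (((K : ℝ) - 1) * lam * edMean νb νf K m x c) := by
    rw [hLdef, hT]; field_simp
  rwa [e1, e2, e3] at h

end

end Vale.Agent.P168.Upper
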