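import Vale.Agent.P168.Upper.Interp
import Vale.Agent.P168.Upper.Nested
import Vale.Agent.P168.Upper.Limit

/-! The interpolating pressure as a cascade average, and its limit. -/

open MeasureTheory ProbabilityTheory Finset Filter
open scoped BigOperators Topology

namespace Vale.Agent.P168.Upper

noncomputable section

/-- The factor data `(b, f)`. -/
abbrev Fac (K : ℕ) := ℝ × (Fin K → Bool → ℝ)

/-- A slot without its trees: kind, factor, sites, level-zero variables. -/
abbrev Slot0 (K N : ℕ) := Fin K × (Fac K × ((Fin K → Fin N) × (Fin K → ℝ)))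

/-- The law of a factor. -/
def facLaw (K : ℕ) (νb : Measure ℝ) (νf : Measure (Bool → ℝ)) : Measure (Fac K) :=
  νb.prod (Measure.pi fun _ : Fin K => νf)

instance (K : ℕ) (νb : Measure ℝ) (νf : Measure (Bool → ℝ)) [IsProbabilityMeasure νb]
    [IsProbabilityMeasure νf] : IsProbabilityMeasure (facLaw K νb νf) := by
  unfold facLaw; infer_instance

/-- The law of a slot without its trees. -/
def slot0Law (K N : ℕ) (νb : Measure ℝ) (νf : Measure (Bool → ℝ)) : Measure (Slot0 K N) :=
  (unifFin (Fin K)).prod ((facLaw K νb νf).prod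
    ((Measure.pi fun _ : Fin K => unifFin (Fin N)).prod (piUnif (Fin K))))

instance (K N : ℕ) [NeZero K] [NeZero N] (νb : Measure ℝ) (νf : Measure (Bool → ℝ))
    [IsProbabilityMeasure νb] [IsProbabilityMeasure νf] :
    IsProbabilityMeasure (slot0Law K N νb νf) := by
  unfold slot0Law; infer_instance

variable {K N r : ℕ}

/-- Attaching trees to a slot. -/
def join (n : Fin r → ℕ) (z : Slot0 K N × (Fin K → CascTree ℝ r n)) : SlotT K N r n :=
  (z.1.1, z.1.2.1.1, fun j => (z.1.2.1.2 j, z.1.2.2.1 j, z.1.2.2.2 j, z.2 j))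

variable {νb : Measure ℝ} {νf : Measure (Bool → ℝ)} [IsProbabilityMeasure νb]
  [IsProbabilityMeasure νf]

theorem mp_join [NeZero K] [NeZero N] (n : Fin r → ℕ) :
    MeasurePreserving (join (K := K) (N := N) n)
      ((slot0Law K N νb νf).prod (Measure.pi fun _ => cascLaw unif r n))
      (slotLaw K N r n νb νf) := by
  have a := ((MeasurePreserving.id νb).prod ((mp_zip νf _).comp
    ((MeasurePreserving.id (Measure.pi fun _ : Fin K => νf)).prod
      (((mp_zip (unifFin (Fin N)) _).comp
        ((MeasurePreserving.id _).prod (mp_zip unif (cascLaw unif r n)))).comp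
          (measurePreserving_prodAssoc _ _ _))))).comp (measurePreserving_prodAssoc νb _ _)
  exact ((MeasurePreserving.id _).prod (a.comp
    (measurePreserving_prodAssoc (facLaw K νb νf) _ _))).comp
      (measurePreserving_prodAssoc (unifFin (Fin K)) _ _)

/-- The weight of a slot, as a function of the messages and the spins. -/
def slotY (c : ℝ) (v : Bool) (s : Slot0 K N) (y : Fin K → ℝ) (σ : Fin N → Bool) : ℝ :=
  1 + clip c s.2.1.1 * ∏ j, if j ∈ sel v s.1 then clip 1 (s.2.1.2 j (σ (s.2.2.1 j)))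
    else favg (s.2.1.2 j) (y j)

/-- The messages of a slot. -/
def msgs {M : ℕ} (x : (Fin (r + 1) → ℝ) → ℝ) (c0 : Fin M → Slot0 K N)
    (ω : Fin r → Fin M × Fin K → ℝ) (k : Fin M) (j : Fin K) : ℝ :=
  x (Fin.cons ((c0 k).2.2.2 j) fun p => ω p (k, j))

/-- The partition function as a function of the marks. -/
def Yfun (x : (Fin (r + 1) → ℝ) → ℝ) (c H : ℝ) {M : ℕ} (κ : Fin M → Bool)
    (hc0 : (Fin N → ℝ) × (Fin M → Slot0 K N)) (ω : Fin r → Fin M × Fin K → ℝ) : ℝ :=
  ∑ σ, fieldW H hc0.1 σ * ∏ k, slotY c (κ k) (hc0.2 k) (msgs x hc0.2 ω k) σ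

/-- `-log (1 - c)`. -/
def Lc (c : ℝ) : ℝ := -Real.log (1 - c)

theorem Lc_nonneg {c : ℝ} (hc : 0 ≤ c) (hc1 : c < 1) : 0 ≤ Lc c := by
  have := Real.log_nonpos (by linarith : 0 ≤ 1 - c) (by linarith)
  unfold Lc
  linarith

theorem weight_bounds {c b z : ℝ} (hc : 0 ≤ c) (hc1 : c < 1) (hz : |z| ≤ 1) :
    Real.exp (-Lc c) ≤ 1 + clip c b * z ∧ 1 + clip c b * z ≤ Real.exp (Lc c) := by
  have h : |clip c b * z| ≤ c := by
    rw [abs_mul]
    exact (mul_le_mul (abs_clip_le hc b) hz (abs_nonneg _) hc).trans_eq (mul_one c)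
  obtain ⟨h1, h2⟩ := abs_le.1 h
  rw [Lc, neg_neg, Real.exp_neg, Real.exp_log (by linarith)]
  refine ⟨by linarith, le_trans (by linarith : 1 + clip c b * z ≤ 1 + c) ?_⟩
  rw [inv_eq_one_div, le_div_iff₀ (by linarith)]
  nlinarith

theorem prod_exp_bounds {ι : Type} (s : Finset ι) {f : ι → ℝ} {L : ℝ}
    (hf : ∀ i ∈ s, Real.exp (-L) ≤ f i ∧ f i ≤ Real.exp L) :
    Real.exp (-(s.card * L)) ≤ ∏ i ∈ s, f i ∧ ∏ i ∈ s, f i ≤ Real.exp (s.card * L) := by
  constructor
  · rw [← mul_neg, Real.exp_nat_mul, ← prod_const]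
    exact prod_le_prod (fun i _ => (Real.exp_pos _).le) fun i hi => (hf i hi).1
  · rw [Real.exp_nat_mul, ← prod_const]
    exact prod_le_prod (fun i hi => (Real.exp_pos _).le.trans (hf i hi).1) fun i hi => (hf i hi).2

theorem sum_exp_bounds {S : Type} [Fintype S] [Nonempty S] {g : S → ℝ} {a : ℝ}
    (h : ∀ s, Real.exp (-a) ≤ g s ∧ g s ≤ Real.exp a) :
    Real.exp (-a) ≤ ∑ s, g s ∧ ∑ s, g s ≤ Fintype.card S * Real.exp a :=
  ⟨(h (Classical.arbitrary S)).1.trans (single_le_sum (fun s _ => (Real.exp_pos _).le.trans (h s).1)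
    (mem_univ _)), le_of_le_of_eq (sum_le_sum fun s _ => (h s).2) (by simp)⟩

theorem abs_log_between {S : Type} [Fintype S] [Nonempty S] {v a : ℝ}
    (h : Real.exp (-a) ≤ v ∧ v ≤ Fintype.card S * Real.exp a) :
    |Real.log v| ≤ Real.log (Fintype.card S) + a := by
  have hv := (Real.exp_pos _).trans_le h.1
  have hS : (1 : ℝ) ≤ Fintype.card S := by exact_mod_cast Fintype.card_pos
  have h1 := Real.log_le_log (Real.exp_pos _) h.1
  have h2 := Real.log_le_log hv h.2
  rw [Real.log_exp] at h1
  rw [Real.log_mul (by linarith) (Real.exp_pos _).ne', Real.log_exp] at h2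
  have := Real.log_nonneg hS
  rw [abs_le]
  constructor <;> linarith

variable {c H : ℝ} {x : (Fin (r + 1) → ℝ) → ℝ}

theorem slotY_bounds (hc : 0 ≤ c) (hc1 : c < 1) (v : Bool) (s : Slot0 K N) {y : Fin K → ℝ}
    (hy : ∀ j, |y j| ≤ 1) (σ : Fin N → Bool) :
    Real.exp (-Lc c) ≤ slotY c v s y σ ∧ slotY c v s y σ ≤ Real.exp (Lc c) := by
  refine weight_bounds hc hc1 ?_
  rw [abs_prod]
  refine prod_le_one (fun j _ => abs_nonneg _) fun j _ => ?_
  split_ifs
  · exact abs_clip_le zero_le_one _
  · exact abs_favg_le _ (hy j)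

theorem Yfun_bounds (hc : 0 ≤ c) (hc1 : c < 1) (hH : 0 ≤ H) (hb : ∀ ω, |x ω| ≤ 1) {M : ℕ}
    (κ : Fin M → Bool) (hc0 : (Fin N → ℝ) × (Fin M → Slot0 K N))
    (ω : Fin r → Fin M × Fin K → ℝ) :
    Real.exp (-(N * H + M * Lc c)) ≤ Yfun x c H κ hc0 ω ∧
      Yfun x c H κ hc0 ω ≤ Fintype.card (Fin N → Bool) * Real.exp (N * H + M * Lc c) := by
  refine sum_exp_bounds fun σ => ?_
  have h1 := fieldW_bounds hH hc0.1 σ
  have h2 := prod_exp_bounds univ fun k (_ : k ∈ univ) =>
    slotY_bounds hc hc1 (κ k) (hc0.2 k) (y := msgs x hc0.2 ω k) (fun j => hb _) σ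
  rw [card_univ, Fintype.card_fin] at h2
  rw [neg_add, Real.exp_add, Real.exp_add]
  exact ⟨mul_le_mul h1.1 h2.1 (Real.exp_pos _).le ((Real.exp_pos _).le.trans h1.1),
    mul_le_mul h1.2 h2.2 ((Real.exp_pos _).le.trans h2.1) (Real.exp_pos _).le⟩

theorem measurable_eval₂ : Measurable fun q : (Bool → ℝ) × Bool => q.1 q.2 :=
  measurable_from_prod_countable_left fun b => measurable_pi_apply b

theorem measurable_favg : Measurable fun q : (Bool → ℝ) × ℝ => favg q.1 q.2 := by
  have hf : ∀ b : Bool, Measurable fun q : (Bool → ℝ) × ℝ => clip 1 (q.1 b) := fun b =>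
    (measurable_clip 1).comp ((measurable_pi_apply b).comp measurable_fst)
  exact (((hf true).mul (measurable_snd.const_add 1)).add
    ((hf false).mul (measurable_const.sub measurable_snd))).div_const 2

theorem measurable_slotY (v : Bool) (σ : Fin N → Bool) :
    Measurable fun q : Slot0 K N × (Fin K → ℝ) => slotY c v q.1 q.2 σ := by
  refine measurable_const.add (((measurable_clip c).comp (measurable_fst.comp (measurable_fst.comp
    (measurable_snd.comp measurable_fst)))).mul (Finset.measurable_prod _ fun j _ => ?_))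
  have hf : Measurable fun q : Slot0 K N × (Fin K → ℝ) => q.1.2.1.2 j :=
    (measurable_pi_apply j).comp (measurable_snd.comp (measurable_fst.comp
      (measurable_snd.comp measurable_fst)))
  have hi : Measurable fun q : Slot0 K N × (Fin K → ℝ) => σ (q.1.2.2.1 j) :=
    (measurable_of_countable σ).comp ((measurable_pi_apply j).comp (measurable_fst.comp
      (measurable_snd.comp (measurable_snd.comp measurable_fst))))
  exact Measurable.ite ((Set.toFinite {ℓ | j ∈ sel v ℓ}).measurableSet.preimage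
      (measurable_fst.comp measurable_fst))
    ((measurable_clip 1).comp (measurable_eval₂.comp (hf.prodMk hi)))
    (measurable_favg.comp (hf.prodMk ((measurable_pi_apply j).comp measurable_snd)))

theorem measurable_Yfun (hx : Measurable x) {M : ℕ} (κ : Fin M → Bool) :
    Measurable (Function.uncurry (Yfun (K := K) (N := N) x c H κ)) := by
  refine Finset.measurable_sum _ fun σ _ => ?_
  have hh : ∀ i, Measurable fun q : ((Fin N → ℝ) × (Fin M → Slot0 K N)) ×
      (Fin r → Fin M × Fin K → ℝ) => clip H (q.1.1 i) := fun i =>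
    (measurable_clip H).comp ((measurable_pi_apply i).comp (measurable_fst.comp measurable_fst))
  refine (Real.measurable_exp.comp (Finset.measurable_sum _ fun i _ => (hh i).mul_const _)).mul
    (Finset.measurable_prod _ fun k _ => ?_)
  have hs : Measurable fun q : ((Fin N → ℝ) × (Fin M → Slot0 K N)) ×
      (Fin r → Fin M × Fin K → ℝ) => q.1.2 k :=
    (measurable_pi_apply k).comp (measurable_snd.comp measurable_fst)
  refine (measurable_slotY (κ k) σ).comp (hs.prodMk (measurable_pi_lambda _ fun j => ?_))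
  refine hx.comp (measurable_pi_lambda _ fun p => ?_)
  cases p using Fin.cases with
  | zero =>
    simp only [Fin.cons_zero]
    exact (measurable_pi_apply j).comp
      (measurable_snd.comp (measurable_snd.comp (measurable_snd.comp hs)))
  | succ p =>
    simp only [Fin.cons_succ]
    exact (measurable_pi_apply (k, j)).comp ((measurable_pi_apply p).comp measurable_snd)

theorem measurable_cascMean {β P : Type} [MeasurableSpace β] [MeasurableSpace P]
    (m : Fin r → ℝ) (n : Fin r → ℕ) (Y : P → (Fin r → β) → ℝ)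
    (hY : Measurable (Function.uncurry Y)) :
    Measurable fun q : P × CascTree β r n => cascMean m n (Y q.1) q.2 := by
  simp only [cascMean, cascSum_eq]
  refine (Finset.measurable_sum _ fun α _ => ?_).div (Finset.measurable_sum _ fun α _ => ?_)
  · exact ((measurable_leafWt r m n α).comp measurable_snd).mul
      (hY.comp (measurable_fst.prodMk ((measurable_leafMarks r n α).comp measurable_snd)))
  · exact ((measurable_leafWt r m n α).comp measurable_snd).mul_const _

theorem measurable_logCascMean {β : Type} [MeasurableSpace β] (m : Fin r → ℝ) (n : Fin r → ℕ)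
    (Y : (Fin r → β) → ℝ) (hY : Measurable Y) :
    Measurable fun t : CascTree β r n => Real.log (cascMean m n Y t) := by
  simp only [cascMean, cascSum_eq]
  refine Real.measurable_log.comp
    ((Finset.measurable_sum _ fun α _ => ?_).div (Finset.measurable_sum _ fun α _ => ?_))
  · exact (measurable_leafWt r m n α).mul (hY.comp (measurable_leafMarks r n α))
  · exact (measurable_leafWt r m n α).mul_const _

theorem measurable_Yfun_right (hx : Measurable x) {M : ℕ} (κ : Fin M → Bool)
    (q : (Fin N → ℝ) × (Fin M → Slot0 K N)) : Measurable (Yfun x c H κ q) :=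
  (measurable_Yfun (K := K) (N := N) (c := c) (H := H) hx κ).comp
    (f := fun ω : Fin r → Fin M × Fin K → ℝ => (q, ω)) (measurable_const.prodMk measurable_id)

variable (νb νf) in
/-- The law of fields and slots without trees. -/
def hcLaw (K N M : ℕ) (Q : Measure ℝ) : Measure ((Fin N → ℝ) × (Fin M → Slot0 K N)) :=
  (Measure.pi fun _ => Q).prod (Measure.pi fun _ : Fin M => slot0Law K N νb νf)

variable {Q : Measure ℝ} [IsProbabilityMeasure Q]

instance [NeZero K] [NeZero N] {M : ℕ} : IsProbabilityMeasure (hcLaw νb νf K N M Q) := by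
  unfold hcLaw; infer_instance

/-- Slots and trees from the flat data. -/
def unflat (n : Fin r → ℕ) {M : ℕ} (z : ((Fin N → ℝ) × (Fin M → Slot0 K N)) ×
    (CascTree Unit r n × (Fin M × Fin K → CascTree ℝ r n))) :
    Base N r n × (Fin M → SlotT K N r n) :=
  ((z.1.1, z.2.1), fun k => join n (z.1.2 k, fun j => z.2.2 (k, j)))

theorem mp_unflat [NeZero K] [NeZero N] (n : Fin r → ℕ) (M : ℕ) :
    MeasurePreserving (unflat (K := K) (N := N) n (M := M))
      ((hcLaw νb νf K N M Q).prod ((cascLaw (Measure.dirac ()) r n).prod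
        (Measure.pi fun _ => cascLaw unif r n)))
      ((baseLaw N r n Q).prod (Measure.pi fun _ : Fin M => slotLaw K N r n νb νf)) := by
  have h1 := mp_shuffle (Measure.pi fun _ : Fin N => Q)
    (Measure.pi fun _ : Fin M => slot0Law K N νb νf) (cascLaw (Measure.dirac ()) r n)
    (Measure.pi fun _ : Fin M × Fin K => cascLaw unif r n)
  have h2 := (measurePreserving_prodAssoc (Measure.pi fun _ : Fin N => Q)
    (cascLaw (Measure.dirac ()) r n) ((Measure.pi fun _ : Fin M => slot0Law K N νb νf).prod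
      (Measure.pi fun _ : Fin M × Fin K => cascLaw unif r n))).symm
  have h3 : MeasurePreserving (fun w : (Fin M → Slot0 K N) × (Fin M × Fin K → CascTree ℝ r n) =>
      fun k => join n (w.1 k, fun j => w.2 (k, j)))
      ((Measure.pi fun _ : Fin M => slot0Law K N νb νf).prod
        (Measure.pi fun _ : Fin M × Fin K => cascLaw unif r n))
      (Measure.pi fun _ : Fin M => slotLaw K N r n νb νf) :=
    ((mp_pi (mp_join n)).comp
      (mp_zip (slot0Law K N νb νf) (Measure.pi fun _ : Fin K => cascLaw unif r n))).comp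
        ((MeasurePreserving.id _).prod (mp_curry (cascLaw unif r n)))
  have h4 := (MeasurePreserving.id (baseLaw N r n Q)).prod h3
  unfold hcLaw
  exact h4.comp (h2.comp h1)

omit [IsProbabilityMeasure νb] [IsProbabilityMeasure νf] [IsProbabilityMeasure Q] in
theorem logZ_unflat (m : Fin r → ℝ) (n : Fin r → ℕ) {M : ℕ} (κ : Fin M → Bool)
    (q : (Fin N → ℝ) × (Fin M → Slot0 K N))
    (z : CascTree Unit r n × (Fin M × Fin K → CascTree ℝ r n))
    (hz : ∀ α, 0 < leafWt r m n z.1 α) :
    logZ m x c H κ (unflat n (q, z)) =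
      Real.log (cascMean m n (Yfun x c H κ q) (combine r n z)) := by
  simp only [logZ, cascMean, cascSum_eq, leafWt_combine]
  congr 1
  rw [Fintype.sum_prod_type, sum_div]
  refine sum_congr rfl fun α _ => ?_
  rw [Yfun, mul_sum, sum_div]
  refine sum_congr rfl fun σ _ => ?_
  have e : ∀ k, slotW x c (κ k) (join n (q.2 k, fun j => z.2 (k, j))) (α, σ) =
      slotY c (κ k) (q.2 k) (msgs x q.2 (leafMarks r n (combine r n z) α) k) σ := fun k => by
    have em : ∀ j, leafMarks r n (z.2 (k, j)) α =
        fun p => leafMarks r n (combine r n z) α p (k, j) := fun j =>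
      funext fun p => (leafMarks_combine r n z α p (k, j)).symm
    simp only [slotW, join, zSpin, zMsg, msgAt, em]
    rfl
  simp only [unflat, e, baseW, abs_of_pos (hz _), mul_one]
  ring

/-- The interpolating pressure as an iterated cascade average. -/
theorem interp_eq [NeZero K] [NeZero N] (hc : 0 ≤ c) (hc1 : c < 1) (hH : 0 ≤ H)
    (hx : Measurable x) (hb : ∀ ω, |x ω| ≤ 1) (m : Fin r → ℝ) (n : Fin r → ℕ) {M : ℕ}
    (κ : Fin M → Bool) :
    interp (K := K) (N := N) (n := n) m x c H νb νf Q κ =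
        ∫ q, (∫ t, Real.log (cascMean m n (Yfun x c H κ q) t)
          ∂cascLaw (piUnif (Fin M × Fin K)) r n) ∂hcLaw νb νf K N M Q ∧
      ∀ q : (Fin N → ℝ) × (Fin M → Slot0 K N),
        |∫ t, Real.log (cascMean m n (Yfun x c H κ q) t)
          ∂cascLaw (piUnif (Fin M × Fin K)) r n| ≤ zBound N M c H := by
  have hm := measurable_logZ (K := K) (N := N) (n := n) (m := m) (c := c) (H := H) hx κ
  have hinner : ∀ q : (Fin N → ℝ) × (Fin M → Slot0 K N), ∫ z, logZ m x c H κ (unflat n (q, z))
        ∂(cascLaw (Measure.dirac ()) r n).prod (Measure.pi fun _ => cascLaw unif r n) =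
      ∫ t, Real.log (cascMean m n (Yfun x c H κ q) t) ∂cascLaw (piUnif (Fin M × Fin K)) r n := by
    intro q
    have hg := measurable_logCascMean m n (Yfun x c H κ q)
      (measurable_Yfun_right (K := K) (N := N) hx κ q)
    rw [← integral_mp (mp_combine unif r n) hg]
    refine integral_congr_ae ?_
    filter_upwards [Measure.quasiMeasurePreserving_fst.ae (ae_leafWt_pos _ r m n)] with z hz
    exact logZ_unflat m n κ q z hz
  have hmp := mp_unflat (νb := νb) (νf := νf) (Q := Q) (K := K) (N := N) n M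
  refine ⟨?_, fun q => ?_⟩
  · rw [interp, ← integral_mp hmp hm, integral_prod]
    · exact integral_congr_ae (ae_of_all _ hinner)
    · exact Integrable.of_bound (hm.comp hmp.measurable).aestronglyMeasurable (zBound N M c H)
        (ae_of_all _ fun _ => abs_logZ_le hc hc1 hH hb _ _)
  · rw [← hinner q]
    have h := norm_integral_le_of_norm_le_const (C := zBound N M c H)
      (ae_of_all ((cascLaw (Measure.dirac ()) r n).prod (Measure.pi fun _ => cascLaw unif r n))
        fun z => (Real.norm_eq_abs _).trans_le (abs_logZ_le (m := m) hc hc1 hH hb κ (unflat n (q, z))))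
    simpa using h

/-- The limit of the interpolating pressure. -/
theorem tendsto_interp [NeZero K] [NeZero N] (hL : CascadeLogStmt) (hc : 0 ≤ c) (hc1 : c < 1)
    (hH : 0 ≤ H) (hx : Measurable x) (hb : ∀ ω, |x ω| ≤ 1) (m : Fin r → ℝ)
    (hm : ∀ i, 0 < m i) (hm1 : ∀ i, m i < 1) (hmono : StrictMono m) {M : ℕ}
    (κ : Fin M → Bool) :
    Tendsto (fun n => interp (K := K) (N := N) (n := n) m x c H νb νf Q κ) (cascFilter r)
      (𝓝 (∫ q, Real.log (genNested (piUnif (Fin M × Fin K)) m (Yfun x c H κ q))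
        ∂hcLaw νb νf K N M Q)) := by
  have hkey := fun n => interp_eq (νb := νb) (νf := νf) (Q := Q) (K := K) (N := N) hc hc1 hH hx hb
    m n κ
  simp only [fun n => (hkey n).1]
  set C := (Fintype.card (Fin N → Bool) : ℝ) * Real.exp (N * H + M * Lc c) with hC
  have hcard : (1 : ℝ) ≤ Fintype.card (Fin N → Bool) := by exact_mod_cast Fintype.card_pos
  have hCpos : 0 < C := mul_pos (by linarith) (Real.exp_pos _)
  have hlim : ∀ q, Tendsto (fun n => ∫ t, Real.log (cascMean m n (Yfun x c H κ q) t)
      ∂cascLaw (piUnif (Fin M × Fin K)) r n) (cascFilter r)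
      (𝓝 (Real.log (genNested (piUnif (Fin M × Fin K)) m (Yfun x c H κ q)))) := fun q =>
    hL _ (piUnif (Fin M × Fin K)) r m hm hm1 hmono _ C hCpos
      (measurable_Yfun_right hx κ q) fun ω => by
        obtain ⟨h1, h2⟩ := Yfun_bounds hc hc1 hH hb κ q ω
        refine ⟨le_trans ?_ h1, h2⟩
        rw [hC, mul_inv, Real.exp_neg]
        exact mul_le_of_le_one_left (by positivity) (inv_le_one_of_one_le₀ hcard)
  have := cascFilter_neBot r
  refine tendsto_integral_cascFilter (hcLaw νb νf K N M Q) _ _ (zBound N M c H) (fun n => ?_) ?_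
    (fun n q => (hkey n).2 q) (fun q => le_of_tendsto (hlim q).abs
      (Eventually.of_forall fun n => (hkey n).2 q)) hlim
  · have hY : Measurable fun q : ((Fin N → ℝ) × (Fin M → Slot0 K N)) ×
        CascTree (Fin M × Fin K → ℝ) r n => cascMean m n (Yfun x c H κ q.1) q.2 :=
      measurable_cascMean m n (Yfun (K := K) (N := N) x c H κ) (measurable_Yfun hx κ)
    exact ((Real.measurable_log.comp hY).stronglyMeasurable.integral_prod_right'
      (ν := cascLaw (piUnif (Fin M × Fin K)) r n)).measurable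
  · exact Real.measurable_log.comp
      (measurable_genNested _ m (Yfun (K := K) (N := N) x c H κ) (measurable_Yfun hx κ))

/-- The comparison in the limit. -/
theorem limit_le [NeZero K] [NeZero N] (hL : CascadeLogStmt) (hK : Even K) (hc : 0 ≤ c)
    (hc1 : c < 1) (hH : 0 ≤ H) (hx : Measurable x) (hb : ∀ ω, |x ω| ≤ 1)
    (hpos : ∀ i : ℕ, 1 ≤ i → 0 ≤ ∫ b, (-clip c b) ^ i ∂νb) (m : Fin r → ℝ)
    (hm : ∀ i, 0 < m i) (hm1 : ∀ i, m i < 1) (hmono : StrictMono m) (M : ℕ) :
    ∫ q, Real.log (genNested (piUnif (Fin M × Fin K)) m (Yfun x c H (fun _ => true) q))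
        ∂hcLaw νb νf K N M Q ≤
      ∫ q, Real.log (genNested (piUnif (Fin M × Fin K)) m (Yfun x c H (fun _ => false) q))
        ∂hcLaw νb νf K N M Q := by
  have := cascFilter_neBot r
  exact le_of_tendsto_of_tendsto' (tendsto_interp hL hc hc1 hH hx hb m hm hm1 hmono _)
    (tendsto_interp hL hc hc1 hH hx hb m hm hm1 hmono _)
    fun n => interp_le hK hc hc1 hH hx hb hpos M

end

end Vale.Agent.P168.Upper
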