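import Vale.Agent.P168.Upper.Product
import Vale.Agent.P168.Statements

/-! Thinning of Poisson many independent slots, and Poisson means. -/

open MeasureTheory ProbabilityTheory Finset
open scoped BigOperators NNReal

namespace Vale.Agent.P168.Upper

noncomputable section

variable {Z W : Type} [MeasurableSpace Z] [MeasurableSpace W]

/-- The positions of the selected slots, in increasing order. -/
def selList {M : ℕ} (sel : Z → Bool) (c : Fin M → Z) : List (Fin M) :=
  (List.finRange M).filter fun k => sel (c k)

/-- The images of the selected slots. -/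
def selImage {M : ℕ} (sel : Z → Bool) (proj : Z → W) (c : Fin M → Z) : List W :=
  (selList sel c).map fun k => proj (c k)

omit [MeasurableSpace Z] [MeasurableSpace W] in
theorem selImage_cons {M : ℕ} (sel : Z → Bool) (proj : Z → W) (z : Z) (c : Fin M → Z) :
    selImage sel proj (Fin.cons z c : Fin (M + 1) → Z) =
      if sel z then proj z :: selImage sel proj c else selImage sel proj c := by
  simp only [selImage, selList, List.finRange_succ, List.filter_cons, Fin.cons_zero]
  split_ifs <;> simp [List.filter_map, Function.comp_def, List.map_map]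

omit [MeasurableSpace Z] [MeasurableSpace W] in
theorem length_selImage_le {M : ℕ} (sel : Z → Bool) (proj : Z → W) (c : Fin M → Z) :
    (selImage sel proj c).length ≤ M := by
  rw [selImage, List.length_map, selList]
  exact (List.length_filter_le _ _).trans (by simp)

theorem measurable_selImage {M : ℕ} {sel : Z → Bool} {proj : Z → W} (hsel : Measurable sel)
    (hproj : Measurable proj) (Φ : List W → ℝ)
    (hΦ : ∀ i, Measurable fun w : Fin i → W => Φ (List.ofFn w)) :
    Measurable fun c : Fin M → Z => Φ (selImage sel proj c) := by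
  induction M generalizing Φ with
  | zero =>
    have e : ∀ c : Fin 0 → Z, selImage sel proj c = [] := fun c => by simp [selImage, selList]
    simp [e]
  | succ M ih =>
    have h1 : Measurable fun q : Bool × (Fin (M + 1) → Z) =>
        if q.1 then Φ (proj (q.2 0) :: selImage sel proj (Fin.tail q.2))
        else Φ (selImage sel proj (Fin.tail q.2)) := by
      have htail : Measurable fun c : Fin (M + 1) → Z => Fin.tail c :=
        measurable_pi_lambda _ fun i => measurable_pi_apply i.succ
      refine Measurable.ite (measurable_fst (measurableSet_singleton true)) ?_ ?_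
      · have hpi : ∀ L : List (Fin M), Measurable fun c : Fin (M + 1) → Z =>
            Φ (proj (c 0) :: L.map fun k => proj (c k.succ)) := fun L => by
          have e : ∀ c : Fin (M + 1) → Z, (proj (c 0) :: L.map fun k => proj (c k.succ)) =
              List.ofFn (Fin.cons (proj (c 0)) fun a : Fin L.length => proj (c (L.get a).succ) :
                Fin (L.length + 1) → W) := fun c => by
            rw [List.ofFn_cons]
            congr 1
            conv_lhs => rw [← List.ofFn_get L, List.map_ofFn]
            rfl
          simp only [e]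
          refine (hΦ _).comp (measurable_pi_lambda _ fun a => ?_)
          cases a using Fin.cases with
          | zero =>
            simp only [Fin.cons_zero]
            exact hproj.comp (measurable_pi_apply (0 : Fin (M + 1)))
          | succ a =>
            simp only [Fin.cons_succ]
            exact hproj.comp (measurable_pi_apply (L.get a).succ)
        have hS : ∀ k : Fin M, Measurable fun q : Bool × (Fin (M + 1) → Z) => sel (q.2 k.succ) :=
          fun k => hsel.comp ((measurable_pi_apply _).comp measurable_snd)
        have hbig : Measurable fun q : (Fin M → Bool) × (Fin (M + 1) → Z) =>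
            Φ (proj (q.2 0) :: ((List.finRange M).filter fun k => q.1 k).map fun k =>
              proj (q.2 k.succ)) :=
          measurable_from_prod_countable_right fun s => hpi ((List.finRange M).filter fun k => s k)
        exact hbig.comp ((measurable_pi_lambda _ hS).prodMk measurable_snd)
      · exact (ih Φ hΦ).comp (htail.comp measurable_snd)
    convert h1.comp ((hsel.comp (measurable_pi_apply 0)).prodMk measurable_id) using 1
    funext c
    simp only [Function.comp_apply, id_eq]
    conv_lhs => rw [← Fin.cons_self_tail c, selImage_cons]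
    split_ifs <;> rfl

variable {sel : Z → Bool} {proj : Z → W} {ρ : Measure Z} {σ : Measure W} [IsProbabilityMeasure ρ]
  [IsProbabilityMeasure σ]

theorem integral_cons {S : Type} [MeasurableSpace S] (μ : Measure S) [IsProbabilityMeasure μ]
    {M : ℕ} {F : (Fin (M + 1) → S) → ℝ} (hF : Measurable F) {C : ℝ} (hC : ∀ c, |F c| ≤ C) :
    ∫ c, F c ∂(Measure.pi fun _ => μ) =
      ∫ z, ∫ c : Fin M → S, F (Fin.cons z c) ∂(Measure.pi fun _ => μ) ∂μ := by
  have hmp := (measurePreserving_piFinSuccAbove (fun _ : Fin (M + 1) => μ) 0).symm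
  have e : ∀ q : S × (Fin M → S), F ((MeasurableEquiv.piFinSuccAbove (fun _ => S) 0).symm q) =
      F (Fin.cons q.1 q.2) := fun q => by
    simp [MeasurableEquiv.piFinSuccAbove, Fin.consEquiv]
  rw [← integral_mp hmp hF]
  have hi : Integrable (fun q : S × (Fin M → S) =>
      F ((MeasurableEquiv.piFinSuccAbove (fun _ => S) 0).symm q))
      (μ.prod (Measure.pi fun _ => μ)) :=
    Integrable.of_bound (hF.comp hmp.measurable).aestronglyMeasurable C
      (ae_of_all _ fun q => hC _)
  rw [integral_prod _ hi]
  simp only [e]

/-- Binomial thinning. -/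
theorem integral_selImage (hsel : Measurable sel) (hproj : Measurable proj) (p : ℝ)
    (hlaw : ∀ G : W → ℝ, Measurable G → (∀ C : ℝ, (∀ w, |G w| ≤ C) →
      ∫ z, (if sel z then G (proj z) else 0) ∂ρ = p * ∫ w, G w ∂σ)) :
    ∀ (M : ℕ) (Φ : List W → ℝ) (C : ℝ), (∀ i, Measurable fun w : Fin i → W => Φ (List.ofFn w)) →
      (∀ l, l.length ≤ M → |Φ l| ≤ C) →
      ∫ c : Fin M → Z, Φ (selImage sel proj c) ∂(Measure.pi fun _ => ρ) =
        ∑ i ∈ range (M + 1), (M.choose i : ℝ) * (p ^ i * (1 - p) ^ (M - i)) *
          ∫ w : Fin i → W, Φ (List.ofFn w) ∂(Measure.pi fun _ => σ) := by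
  intro M
  induction M with
  | zero =>
    intro Φ C _ _
    have e : ∀ c : Fin 0 → Z, selImage sel proj c = [] := fun c => by simp [selImage, selList]
    simp [e]
  | succ M ih =>
    intro Φ C hΦ hC
    have hbig : ∀ c : Fin (M + 1) → Z, |Φ (selImage sel proj c)| ≤ C := fun c =>
      hC _ (length_selImage_le _ _ _)
    rw [integral_cons ρ (measurable_selImage hsel hproj Φ hΦ) hbig]
    set a : ℕ → ℝ := fun i => ∫ w : Fin i → W, Φ (List.ofFn w) ∂(Measure.pi fun _ => σ) with ha
    set G : W → ℝ := fun w => ∑ i ∈ range (M + 1), (M.choose i : ℝ) * (p ^ i * (1 - p) ^ (M - i)) *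
      ∫ u : Fin i → W, Φ (w :: List.ofFn u) ∂(Measure.pi fun _ => σ) with hG
    have hcm : ∀ i, Measurable fun q : W × (Fin i → W) => Φ (q.1 :: List.ofFn q.2) := fun i => by
      have e : ∀ q : W × (Fin i → W), q.1 :: List.ofFn q.2 =
          List.ofFn (Fin.cons q.1 q.2 : Fin (i + 1) → W) := fun q => (List.ofFn_cons _ _).symm
      simp only [e]
      refine (hΦ _).comp (measurable_pi_lambda _ fun a => ?_)
      cases a using Fin.cases with
      | zero => simp [measurable_fst]
      | succ a =>
        simp only [Fin.cons_succ]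
        exact (measurable_pi_apply a).comp measurable_snd
    have hin : ∀ i, i ≤ M → ∀ w, |∫ u : Fin i → W, Φ (w :: List.ofFn u) ∂(Measure.pi fun _ => σ)| ≤ C :=
      fun i hi w => by
        have hb : ∀ᵐ u ∂(Measure.pi fun _ : Fin i => σ), ‖Φ (w :: List.ofFn u)‖ ≤ C :=
          ae_of_all _ fun u => by
            rw [Real.norm_eq_abs]
            exact hC _ (by simp only [List.length_cons, List.length_ofFn]; omega)
        simpa using norm_integral_le_of_norm_le_const hb
    have hGm : Measurable G := Finset.measurable_sum _ fun i _ =>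
      ((hcm i).stronglyMeasurable.integral_prod_right' (ν := Measure.pi fun _ => σ)).measurable.const_mul _
    set D := ∑ i ∈ range (M + 1), |(M.choose i : ℝ) * (p ^ i * (1 - p) ^ (M - i))| * C with hD
    have hGb : ∀ w, |G w| ≤ D := fun w => (abs_sum_le_sum_abs _ _).trans (sum_le_sum fun i hi => by
      rw [abs_mul]
      exact mul_le_mul_of_nonneg_left (hin i (Nat.lt_succ_iff.1 (mem_range.1 hi)) w) (abs_nonneg _))
    set a0 := ∑ i ∈ range (M + 1), (M.choose i : ℝ) * (p ^ i * (1 - p) ^ (M - i)) * a i with ha0
    have hinner : ∀ z, ∫ c : Fin M → Z, Φ (selImage sel proj (Fin.cons z c : Fin (M + 1) → Z))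
        ∂(Measure.pi fun _ => ρ) = if sel z then G (proj z) else a0 := by
      intro z
      simp only [selImage_cons]
      by_cases hz : sel z = true
      · simp only [hz, if_true]
        exact ih (fun l => Φ (proj z :: l)) C
          (fun i => (hcm i).comp (measurable_const.prodMk measurable_id))
          fun l hl => hC _ (by simp; omega)
      · simp only [hz, Bool.false_eq_true, if_false]
        exact ih Φ C hΦ fun l hl => hC l (by omega)
    simp only [hinner]
    have e1 : (fun z => if sel z then G (proj z) else a0) = fun z =>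
        (if sel z then G (proj z) else 0) + (a0 - if sel z then a0 else 0) := by
      funext z
      split_ifs <;> simp
    have hms : MeasurableSet {z | sel z = true} := hsel (measurableSet_singleton true)
    have i1 : Integrable (fun z => if sel z then G (proj z) else 0) ρ :=
      Integrable.of_bound (Measurable.ite hms (hGm.comp hproj) measurable_const).aestronglyMeasurable
        |D| (ae_of_all _ fun z => by
          split_ifs
          · exact (hGb _).trans (le_abs_self D)
          · simp)
    have i2 : Integrable (fun z => if sel z then a0 else 0) ρ :=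
      Integrable.of_bound (Measurable.ite hms measurable_const measurable_const).aestronglyMeasurable
        |a0| (ae_of_all _ fun z => by split_ifs <;> simp)
    have i3 : Integrable (fun z => a0 - if sel z then a0 else 0) ρ := (integrable_const a0).sub i2
    rw [e1, integral_add i1 i3, integral_sub (integrable_const a0) i2,
      hlaw G hGm D hGb, hlaw (fun _ => a0) measurable_const |a0| fun _ => le_rfl]
    have hGa : ∫ w, G w ∂σ =
        ∑ i ∈ range (M + 1), (M.choose i : ℝ) * (p ^ i * (1 - p) ^ (M - i)) * a (i + 1) := by
      rw [hG, integral_finsetSum _ fun i hi => ?_]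
      · refine sum_congr rfl fun i hi => ?_
        rw [integral_const_mul]
        congr 1
        have hi' := Nat.lt_succ_iff.1 (mem_range.1 hi)
        rw [ha]
        simp only
        rw [integral_cons σ (hΦ (i + 1)) (C := C) fun u => hC _ (by simp; omega)]
        simp only [List.ofFn_cons]
      · refine (Integrable.of_bound ?_ C (ae_of_all _ fun w => ?_)).const_mul _
        · exact ((hcm i).stronglyMeasurable.integral_prod_right'
            (ν := Measure.pi fun _ => σ)).aestronglyMeasurable
        · exact hin i (Nat.lt_succ_iff.1 (mem_range.1 hi)) w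
    have h := Finset.sum_choose_succ_mul (fun i j => p ^ i * (1 - p) ^ j * a i) M
    simp only [← mul_assoc] at h ⊢
    rw [h, hGa, ha0]
    simp only [integral_const, probReal_univ, smul_eq_mul, one_mul, mul_sum]
    rw [← sum_sub_distrib, ← sum_add_distrib, ← sum_add_distrib]
    refine sum_congr rfl fun i hi => ?_
    rw [show M + 1 - i = M - i + 1 by have := mem_range.1 hi; omega, pow_succ, pow_succ]
    simp only [ha]
    ring

/-- The Poisson weights. -/
def pw (L : ℝ) (n : ℕ) : ℝ := Real.exp (-L) * L ^ n / n.factorial

theorem integral_poisson {L : ℝ} (hL : 0 ≤ L) (f : ℕ → ℝ) :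
    ∫ n, f n ∂poissonMeasure L.toNNReal = ∑' n, pw L n * f n := by
  rw [integral_poissonMeasure]
  simp [pw, Real.coe_toNNReal _ hL]

theorem summable_pw {L : ℝ} {f : ℕ → ℝ} {A : ℝ}
    (h : ∀ n, |f n| ≤ A * (2 : ℝ) ^ n) : Summable fun n => ‖pw L n * f n‖ := by
  refine Summable.of_nonneg_of_le (fun n => norm_nonneg _) (fun n => ?_)
    ((Real.summable_pow_div_factorial (2 * |L|)).mul_left (Real.exp (-L) * |A|))
  rw [norm_mul, pw, norm_div, norm_mul, norm_pow, Real.norm_eq_abs, Real.norm_eq_abs,
    Real.norm_eq_abs, Real.norm_eq_abs, abs_of_pos (Real.exp_pos _), Nat.abs_cast, mul_pow]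
  have h2 : |f n| ≤ |A| * (2 : ℝ) ^ n :=
    (h n).trans (mul_le_mul_of_nonneg_right (le_abs_self A) (by positivity))
  refine (mul_le_mul_of_nonneg_left h2 (by positivity)).trans_eq ?_
  ring

theorem integrable_poisson {L : ℝ} (hL : 0 ≤ L) {f : ℕ → ℝ} {A : ℝ}
    (h : ∀ n, |f n| ≤ A * (2 : ℝ) ^ n) : Integrable f (poissonMeasure L.toNNReal) := by
  rw [integrable_poissonMeasure_iff]
  refine (summable_pw (L := L) h).congr fun n => ?_
  rw [norm_mul, pw, Real.norm_eq_abs, abs_of_nonneg (by positivity), Real.coe_toNNReal _ hL]

/-- Thinned Poisson numbers are Poisson. -/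
theorem poisson_thinning {L p : ℝ} (hL : 0 ≤ L) (hp : 0 ≤ p) (hp1 : p ≤ 1)
    (a : ℕ → ℝ) {A : ℝ} (ha : ∀ i, |a i| ≤ A * (2 : ℝ) ^ i) :
    ∫ M, ∑ i ∈ range (M + 1), (M.choose i : ℝ) * (p ^ i * (1 - p) ^ (M - i)) * a i
        ∂poissonMeasure L.toNNReal = ∫ i, a i ∂poissonMeasure (p * L).toNNReal := by
  have hq : 0 ≤ (1 - p) * L := mul_nonneg (by linarith) hL
  rw [integral_poisson hL, integral_poisson (mul_nonneg hp hL)]
  have hg : Summable fun n => ‖pw ((1 - p) * L) n * 1‖ :=
    summable_pw (A := 1) fun n => by simpa using one_le_pow₀ (one_le_two (α := ℝ))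
  have h := tsum_mul_tsum_eq_tsum_sum_range_of_summable_norm (summable_pw (L := p * L) ha) hg
  have hone : ∑' n, pw ((1 - p) * L) n * 1 = 1 := by
    have h1 := hasSum_one_poissonMeasure ((1 - p) * L).toNNReal
    rw [Real.coe_toNNReal _ hq] at h1
    simpa [pw] using h1.tsum_eq
  rw [hone, mul_one] at h
  rw [h]
  refine tsum_congr fun M => ?_
  rw [mul_sum]
  refine sum_congr rfl fun i hi => ?_
  have hiM : i ≤ M := Nat.lt_succ_iff.1 (mem_range.1 hi)
  obtain ⟨j, rfl⟩ := Nat.exists_eq_add_of_le hiM
  rw [Nat.add_sub_cancel_left, Nat.cast_add_choose]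
  simp only [pw]
  have he : Real.exp (-(p * L)) * Real.exp (-((1 - p) * L)) = Real.exp (-L) := by
    rw [← Real.exp_add]; congr 1; ring
  rw [← he, mul_pow, mul_pow, pow_add]
  field_simp

/-- The mean of a Poisson variable. -/
theorem poisson_mean {L : ℝ} (hL : 0 ≤ L) (a : ℝ) :
    ∫ n, (n : ℝ) * a ∂poissonMeasure L.toNNReal = L * a := by
  rw [integral_poisson hL]
  have h1 := hasSum_one_poissonMeasure L.toNNReal
  rw [Real.coe_toNNReal _ hL] at h1
  have h2 : HasSum (fun n => pw L (n + 1) * ((n + 1 : ℕ) : ℝ) * a) (L * a) := by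
    have h3 := (h1.mul_left L).mul_right a
    rw [mul_one] at h3
    refine h3.congr_fun fun n => ?_
    simp only [pw, Nat.factorial_succ, pow_succ]
    push_cast
    field_simp
  rw [← h2.tsum_eq, Summable.tsum_eq_zero_add]
  · simp [mul_assoc]
  · exact (summable_nat_add_iff 1).1 (by simpa [mul_assoc] using h2.summable)

end

end Vale.Agent.P168.Upper
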