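import Vale.Agent.P168.Upper.Data
import Vale.Agent.P168.Upper.Thinning

/-! Factorisation of the limits over clauses, edge terms and sites. -/

open MeasureTheory ProbabilityTheory Finset
open scoped BigOperators

namespace Vale.Agent.P168.Upper

noncomputable section

/-- Clause data: factor and sites. -/
abbrev ClD (K N : ℕ) := Fac K × (Fin K → Fin N)

/-- Site data: position, factor and level-zero variables. -/
abbrev SiD (K : ℕ) := (Fin K × Fac K) × (Fin K → ℝ)

/-- Edge data: factor and level-zero variables. -/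
abbrev EdD (K : ℕ) := Fac K × (Fin K → ℝ)

variable (νb : Measure ℝ) (νf : Measure (Bool → ℝ))

/-- Law of clause data. -/
def clLaw (K N : ℕ) : Measure (ClD K N) :=
  (facLaw K νb νf).prod (Measure.pi fun _ : Fin K => unifFin (Fin N))

/-- Law of site data. -/
def siLaw (K : ℕ) : Measure (SiD K) :=
  ((unifFin (Fin K)).prod (facLaw K νb νf)).prod (piUnif (Fin K))

/-- Law of edge data. -/
def edLaw (K : ℕ) : Measure (EdD K) := (facLaw K νb νf).prod (piUnif (Fin K))

instance (K N : ℕ) [NeZero N] [IsProbabilityMeasure νb] [IsProbabilityMeasure νf] :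
    IsProbabilityMeasure (clLaw νb νf K N) := by
  unfold clLaw; infer_instance

instance (K : ℕ) [NeZero K] [IsProbabilityMeasure νb] [IsProbabilityMeasure νf] :
    IsProbabilityMeasure (siLaw νb νf K) := by
  unfold siLaw; infer_instance

instance (K : ℕ) [IsProbabilityMeasure νb] [IsProbabilityMeasure νf] :
    IsProbabilityMeasure (edLaw νb νf K) := by
  unfold edLaw; infer_instance

variable {K N r : ℕ}

/-- The weight of a clause. -/
def clW (c : ℝ) (w : ClD K N) (σ : Fin N → Bool) : ℝ :=
  1 + clip c w.1.1 * ∏ j, clip 1 (w.1.2 j (σ (w.2 j)))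

/-- `log` of the partition function of clauses and fields. -/
def clLog (c H : ℝ) (h : Fin N → ℝ) (i : ℕ) (w : Fin i → ClD K N) : ℝ :=
  Real.log (∑ σ, fieldW H h σ * ∏ a, clW c (w a) σ)

/-- The weight of a site slot. -/
def siB (c : ℝ) (w : SiD K) (y : Fin K → ℝ) (ε : Bool) : ℝ :=
  1 + clip c w.1.2.1 *
    (clip 1 (w.1.2.2 w.1.1 ε) * ∏ j ∈ univ.erase w.1.1, favg (w.1.2.2 j) (y j))

/-- The partition function of one site. -/
def siY (x : (Fin (r + 1) → ℝ) → ℝ) (c H h : ℝ) {i : ℕ} (w : Fin i → SiD K)
    (ω : Fin r → Fin i × Fin K → ℝ) : ℝ :=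
  ∑ ε, Real.exp (clip H h * spin ε) *
    ∏ a, siB c (w a) (fun j => x (Fin.cons ((w a).2 j) fun p => ω p (a, j))) ε

/-- The site functional. -/
def siLog (m : Fin r → ℝ) (x : (Fin (r + 1) → ℝ) → ℝ) (c H h : ℝ) (i : ℕ) (w : Fin i → SiD K) :
    ℝ :=
  Real.log (genNested (piUnif (Fin i × Fin K)) m (siY x c H h w))

/-- The weight of an edge slot. -/
def edF (x : (Fin (r + 1) → ℝ) → ℝ) (c : ℝ) (w : EdD K) (ω : Fin r → Fin K → ℝ) : ℝ :=
  1 + clip c w.1.1 * ∏ j, favg (w.1.2 j) (x (Fin.cons (w.2 j) fun p => ω p j))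

/-- The edge functional. -/
def edLog (m : Fin r → ℝ) (x : (Fin (r + 1) → ℝ) → ℝ) (c : ℝ) (w : EdD K) : ℝ :=
  Real.log (genNested (piUnif (Fin K)) m (edF x c w))

/-- A family of functions on tuples, read on a list. -/
def onList {α : Type} (F : ∀ i, (Fin i → α) → ℝ) (l : List α) : ℝ := F l.length l.get

theorem onList_ofFn {α : Type} (F : ∀ i, (Fin i → α) → ℝ) {i : ℕ} (w : Fin i → α) :
    onList F (List.ofFn w) = F i w := by
  let G : (Σ i, Fin i → α) → ℝ := fun q => F q.1 q.2
  change G (List.equivSigmaTuple (List.equivSigmaTuple.symm ⟨i, w⟩)) = G ⟨i, w⟩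
  rw [Equiv.apply_symm_apply]

variable {Z W : Type}

theorem selImage_eq {M : ℕ} (sel : Z → Bool) (proj : Z → W) (c : Fin M → Z) :
    selImage sel proj c = List.ofFn fun a => proj (c ((selList sel c).get a)) := by
  rw [selImage]
  conv_lhs => rw [← List.ofFn_get (selList sel c), List.map_ofFn]
  rfl

theorem prod_sel {M : ℕ} (sel : Z → Bool) (c : Fin M → Z) (G : Fin M → ℝ) :
    ∏ k ∈ univ.filter (fun k => sel (c k) = true), G k = ∏ a, G ((selList sel c).get a) := by
  have e : univ.filter (fun k => sel (c k) = true) = (selList sel c).toFinset := by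
    ext k
    simp [selList]
  have hnd : (selList sel c).Nodup := (List.nodup_finRange M).filter _
  rw [e, List.prod_toFinset G hnd]
  conv_lhs => rw [← List.ofFn_get (selList sel c), List.map_ofFn, List.prod_ofFn]
  rfl

variable [MeasurableSpace Z] [MeasurableSpace W]

theorem integral_onList_selImage {P : Type} [MeasurableSpace P] (μ : Measure P)
    [IsProbabilityMeasure μ] (ρ : Measure Z) [IsProbabilityMeasure ρ] (σ : Measure W)
    [IsProbabilityMeasure σ] {sel : Z → Bool} {proj : Z → W} (hsel : Measurable sel)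
    (hproj : Measurable proj) (p : ℝ)
    (hlaw : ∀ G : W → ℝ, Measurable G → (∀ C : ℝ, (∀ w, |G w| ≤ C) →
      ∫ z, (if sel z then G (proj z) else 0) ∂ρ = p * ∫ w, G w ∂σ))
    (F : P → ∀ i, (Fin i → W) → ℝ)
    (hF : ∀ i, Measurable fun q : P × (Fin i → W) => F q.1 i q.2)
    {B L : ℝ} (hL : 0 ≤ L) (hb : ∀ q i w, |F q i w| ≤ B + i * L) (M : ℕ) :
    ∫ z : P × (Fin M → Z), onList (F z.1) (selImage sel proj z.2)
        ∂μ.prod (Measure.pi fun _ => ρ) =
      ∑ i ∈ range (M + 1), (M.choose i : ℝ) * (p ^ i * (1 - p) ^ (M - i)) *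
        ∫ w : Fin i → W, (∫ q, F q i w ∂μ) ∂(Measure.pi fun _ => σ) ∧
    (∀ z : P × (Fin M → Z), |onList (F z.1) (selImage sel proj z.2)| ≤ B + M * L) ∧
    Integrable (fun z : P × (Fin M → Z) => onList (F z.1) (selImage sel proj z.2))
      (μ.prod (Measure.pi fun _ => ρ)) := by
  have hbd : ∀ z : P × (Fin M → Z), |onList (F z.1) (selImage sel proj z.2)| ≤ B + M * L :=
    fun z => (hb _ _ _).trans (by
      gcongr
      exact_mod_cast length_selImage_le sel proj z.2)
  have hm : Measurable fun z : P × (Fin M → Z) => onList (F z.1) (selImage sel proj z.2) := by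
    have hL' : ∀ L : List (Fin M), Measurable fun q : P × (Fin M → Z) =>
        F q.1 L.length (fun a => proj (q.2 (L.get a))) := fun L =>
      (hF L.length).comp (f := fun q : P × (Fin M → Z) => (q.1, fun a => proj (q.2 (L.get a))))
        (measurable_fst.prodMk (measurable_pi_lambda _ fun a =>
          hproj.comp ((measurable_pi_apply (L.get a)).comp measurable_snd)))
    have hbig : Measurable fun q : (Fin M → Bool) × (P × (Fin M → Z)) =>
        F q.2.1 ((List.finRange M).filter fun k => q.1 k).length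
          (fun a => proj (q.2.2 (((List.finRange M).filter fun k => q.1 k).get a))) :=
      measurable_from_prod_countable_right fun s => hL' ((List.finRange M).filter fun k => s k)
    have hpat : Measurable fun z : P × (Fin M → Z) => ((fun k => sel (z.2 k)), z) :=
      (measurable_pi_lambda _ fun k =>
        hsel.comp ((measurable_pi_apply k).comp measurable_snd)).prodMk measurable_id
    convert hbig.comp hpat using 1
    funext z
    rw [selImage_eq, onList_ofFn]
    rfl
  have hi : Integrable (fun z : P × (Fin M → Z) => onList (F z.1) (selImage sel proj z.2))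
      (μ.prod (Measure.pi fun _ => ρ)) :=
    Integrable.of_bound hm.aestronglyMeasurable (B + M * L) (ae_of_all _ hbd)
  refine ⟨?_, hbd, hi⟩
  rw [integral_prod_symm _ hi]
  have h := integral_selImage (ρ := ρ) (σ := σ) hsel hproj p hlaw M
    (fun l => ∫ q, onList (F q) l ∂μ) (B + M * L) ?_ ?_
  · rw [h]
    refine sum_congr rfl fun i _ => ?_
    simp only [onList_ofFn]
  · intro i
    simp only [onList_ofFn]
    exact ((hF i).stronglyMeasurable.integral_prod_left' (μ := μ)).measurable
  · intro l hl
    have h1 := norm_integral_le_of_norm_le_const (C := B + M * L) (μ := μ)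
      (f := fun q => onList (F q) l) (ae_of_all _ fun q => (hb q l.length l.get).trans (by
        gcongr))
    simpa using h1

variable {m : Fin r → ℝ} {x : (Fin (r + 1) → ℝ) → ℝ} {c H : ℝ}

/-- A slot is a clause when its kind is zero. -/
def isCl (s : Slot0 K N) : Bool := decide (s.1.val = 0)

/-- The site of a site slot. -/
def siteOf (s : Slot0 K N) : Fin N := s.2.2.1 s.1

/-- A site slot sits at `i`. -/
def atSite (i : Fin N) (s : Slot0 K N) : Bool := decide (siteOf s = i)

/-- Clause data of a slot. -/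
def projC (s : Slot0 K N) : ClD K N := (s.2.1, s.2.2.1)

/-- Edge data of a slot. -/
def projE (s : Slot0 K N) : EdD K := (s.2.1, s.2.2.2)

/-- Site data of a slot. -/
def projS (s : Slot0 K N) : SiD K := ((s.1, s.2.1), s.2.2.2)

theorem slotY_true_zero (s : Slot0 K N) (h : isCl s = true) (y : Fin K → ℝ)
    (σ : Fin N → Bool) : slotY c true s y σ = clW c (projC s) σ := by
  have h' : s.1.val = 0 := by simpa [isCl] using h
  simp [slotY, clW, projC, sel, selA, h']

theorem slotY_true_succ (s : Slot0 K N) (h : ¬isCl s = true) (y : Fin K → ℝ)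
    (σ : Fin N → Bool) :
    slotY c true s y σ = 1 + clip c s.2.1.1 * ∏ j, favg (s.2.1.2 j) (y j) := by
  have h' : ¬s.1.val = 0 := by simpa [isCl] using h
  simp [slotY, sel, selA, h']

theorem slotY_false (s : Slot0 K N) (y : Fin K → ℝ) (σ : Fin N → Bool) :
    slotY c false s y σ = siB c (projS s) y (σ (siteOf s)) := by
  unfold slotY siB
  rw [← mul_prod_erase univ _ (mem_univ s.1)]
  congr 3
  · simp [sel, selB, projS, siteOf]
  · refine prod_congr rfl fun j hj => ?_
    have hne : j ≠ s.1 := (mem_erase.1 hj).1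
    simp [sel, selB, projS, hne]

theorem siB_bounds (hc : 0 ≤ c) (hc1 : c < 1) (w : SiD K) {y : Fin K → ℝ}
    (hy : ∀ j, |y j| ≤ 1) (ε : Bool) :
    Real.exp (-Lc c) ≤ siB c w y ε ∧ siB c w y ε ≤ Real.exp (Lc c) := by
  refine weight_bounds hc hc1 ?_
  rw [abs_mul, abs_prod]
  exact mul_le_one₀ (abs_clip_le zero_le_one _) (prod_nonneg fun _ _ => abs_nonneg _)
    (prod_le_one (fun j _ => abs_nonneg _) fun j _ => abs_favg_le _ (hy j))

theorem siY_bounds (hc : 0 ≤ c) (hc1 : c < 1) (hH : 0 ≤ H) (hb : ∀ ω, |x ω| ≤ 1) (h : ℝ) {i : ℕ}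
    (w : Fin i → SiD K) (ω : Fin r → Fin i × Fin K → ℝ) :
    Real.exp (-(H + i * Lc c)) ≤ siY x c H h w ω ∧
      siY x c H h w ω ≤ Fintype.card Bool * Real.exp (H + i * Lc c) := by
  refine sum_exp_bounds fun ε => ?_
  have h1 : |clip H h * spin ε| ≤ H := by
    rw [abs_mul]
    refine le_trans (le_of_eq ?_) (abs_clip_le hH h)
    cases ε <;> simp [spin]
  have h2 := prod_exp_bounds univ fun a (_ : a ∈ univ) => siB_bounds hc hc1 (w a)
    (y := fun j => x (Fin.cons ((w a).2 j) fun p => ω p (a, j))) (fun j => hb _) ε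
  rw [card_univ, Fintype.card_fin] at h2
  rw [neg_add, Real.exp_add, Real.exp_add]
  exact ⟨mul_le_mul (Real.exp_le_exp.2 (abs_le.1 h1).1) h2.1 (Real.exp_pos _).le (Real.exp_pos _).le,
    mul_le_mul (Real.exp_le_exp.2 (abs_le.1 h1).2) h2.2 ((Real.exp_pos _).le.trans h2.1)
      (Real.exp_pos _).le⟩

theorem measurable_siY (hx : Measurable x) (i : ℕ) :
    Measurable fun q : (ℝ × (Fin i → SiD K)) × (Fin r → Fin i × Fin K → ℝ) =>
      siY x c H q.1.1 q.1.2 q.2 := by
  refine Finset.measurable_sum _ fun ε _ => ?_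
  refine (Real.measurable_exp.comp (((measurable_clip H).comp
    (measurable_fst.comp measurable_fst)).mul_const _)).mul (Finset.measurable_prod _ fun a _ => ?_)
  have hB : Measurable fun u : SiD K × (Fin K → ℝ) => siB c u.1 u.2 ε := by
    have h1 : Measurable fun u : Fin K × ((Fac K) × (Fin K → ℝ)) =>
        1 + clip c u.2.1.1 *
          (clip 1 (u.2.1.2 u.1 ε) * ∏ j ∈ univ.erase u.1, favg (u.2.1.2 j) (u.2.2 j)) :=
      measurable_from_prod_countable_right fun ℓ => by
        have hf : ∀ j, Measurable fun u : Fac K × (Fin K → ℝ) => u.1.2 j := fun j =>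
          (measurable_pi_apply j).comp (measurable_snd.comp measurable_fst)
        exact measurable_const.add (((measurable_clip c).comp
          (measurable_fst.comp measurable_fst)).mul
          (((measurable_clip 1).comp ((measurable_pi_apply ε).comp (hf ℓ))).mul
            (Finset.measurable_prod (univ.erase ℓ) fun j _ => measurable_favg.comp
              ((hf j).prodMk ((measurable_pi_apply j).comp measurable_snd)))))
    exact h1.comp ((measurable_fst.comp (measurable_fst.comp measurable_fst)).prodMk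
      ((measurable_snd.comp (measurable_fst.comp measurable_fst)).prodMk measurable_snd))
  have hwa : Measurable fun q : (ℝ × (Fin i → SiD K)) × (Fin r → Fin i × Fin K → ℝ) => q.1.2 a :=
    (measurable_pi_apply a).comp (measurable_snd.comp measurable_fst)
  refine hB.comp (hwa.prodMk (measurable_pi_lambda _ fun j => ?_))
  refine hx.comp (measurable_pi_lambda _ fun p => ?_)
  cases p using Fin.cases with
  | zero =>
    simp only [Fin.cons_zero]
    exact (measurable_pi_apply j).comp (measurable_snd.comp hwa)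
  | succ p =>
    simp only [Fin.cons_succ]
    exact (measurable_pi_apply (a, j)).comp ((measurable_pi_apply p).comp measurable_snd)

theorem measurable_siLog (hx : Measurable x) (i : ℕ) :
    Measurable fun q : ℝ × (Fin i → SiD K) => siLog m x c H q.1 i q.2 :=
  Real.measurable_log.comp (measurable_genNested (piUnif (Fin i × Fin K)) m
    (fun q : ℝ × (Fin i → SiD K) => siY x c H q.1 q.2) (measurable_siY hx i))

theorem abs_siLog_le (hm : ∀ i, 0 < m i) (hc : 0 ≤ c) (hc1 : c < 1) (hH : 0 ≤ H)
    (hx : Measurable x) (hb : ∀ ω, |x ω| ≤ 1) (h : ℝ) (i : ℕ) (w : Fin i → SiD K) :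
    |siLog m x c H h i w| ≤ Real.log 2 + H + i * Lc c := by
  have h1 := genNested_bounds (piUnif (Fin i × Fin K)) m hm (siY x c H h w)
    ((measurable_siY hx i).comp (f := fun ω => ((h, w), ω))
      (measurable_const.prodMk measurable_id)) (Real.exp_pos _)
    (siY_bounds hc hc1 hH hb h w)
  have h2 := abs_log_between (S := Bool) h1
  rw [Fintype.card_bool] at h2
  push_cast at h2
  unfold siLog
  linarith

theorem edF_bounds (hc : 0 ≤ c) (hc1 : c < 1) (hb : ∀ ω, |x ω| ≤ 1) (w : EdD K)
    (ω : Fin r → Fin K → ℝ) :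
    Real.exp (-Lc c) ≤ edF x c w ω ∧ edF x c w ω ≤ Real.exp (Lc c) := by
  refine weight_bounds hc hc1 ?_
  rw [abs_prod]
  exact prod_le_one (fun j _ => abs_nonneg _) fun j _ => abs_favg_le _ (hb _)

theorem measurable_edF (hx : Measurable x) :
    Measurable fun q : EdD K × (Fin r → Fin K → ℝ) => edF x c q.1 q.2 := by
  have hf : ∀ j, Measurable fun q : EdD K × (Fin r → Fin K → ℝ) => q.1.1.2 j := fun j =>
    (measurable_pi_apply j).comp (measurable_snd.comp (measurable_fst.comp measurable_fst))
  have hy : ∀ j, Measurable fun q : EdD K × (Fin r → Fin K → ℝ) =>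
      x (Fin.cons (q.1.2 j) fun p => q.2 p j) := fun j => by
    refine hx.comp (measurable_pi_lambda _ fun p => ?_)
    cases p using Fin.cases with
    | zero =>
      simp only [Fin.cons_zero]
      exact (measurable_pi_apply j).comp (measurable_snd.comp measurable_fst)
    | succ p =>
      simp only [Fin.cons_succ]
      exact (measurable_pi_apply j).comp ((measurable_pi_apply p).comp measurable_snd)
  exact measurable_const.add (((measurable_clip c).comp
    (measurable_fst.comp (measurable_fst.comp measurable_fst))).mul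
      (Finset.measurable_prod univ fun j _ => measurable_favg.comp ((hf j).prodMk (hy j))))

theorem measurable_edLog (hx : Measurable x) :
    Measurable fun w : EdD K => edLog m x c w :=
  Real.measurable_log.comp
    (measurable_genNested (piUnif (Fin K)) m (edF (K := K) x c) (measurable_edF hx))

theorem edGen_bounds (hm : ∀ i, 0 < m i) (hc : 0 ≤ c) (hc1 : c < 1) (hx : Measurable x)
    (hb : ∀ ω, |x ω| ≤ 1) (w : EdD K) :
    Real.exp (-Lc c) ≤ genNested (piUnif (Fin K)) m (edF x c w) ∧
      genNested (piUnif (Fin K)) m (edF x c w) ≤ Real.exp (Lc c) :=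
  genNested_bounds (piUnif (Fin K)) m hm (edF x c w)
    ((measurable_edF hx).comp (f := fun ω => (w, ω)) (measurable_const.prodMk measurable_id))
    (Real.exp_pos _) (edF_bounds hc hc1 hb w)

theorem abs_edLog_le (hm : ∀ i, 0 < m i) (hc : 0 ≤ c) (hc1 : c < 1) (hx : Measurable x)
    (hb : ∀ ω, |x ω| ≤ 1) (w : EdD K) : |edLog m x c w| ≤ Lc c := by
  obtain ⟨h1, h2⟩ := edGen_bounds hm hc hc1 hx hb w
  have h := abs_log_between (S := Unit) (v := genNested (piUnif (Fin K)) m (edF x c w))
    (a := Lc c) ⟨h1, by simpa using h2⟩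
  simpa [edLog] using h

theorem clW_bounds (hc : 0 ≤ c) (hc1 : c < 1) (w : ClD K N) (σ : Fin N → Bool) :
    Real.exp (-Lc c) ≤ clW c w σ ∧ clW c w σ ≤ Real.exp (Lc c) := by
  refine weight_bounds hc hc1 ?_
  rw [abs_prod]
  exact prod_le_one (fun j _ => abs_nonneg _) fun j _ => abs_clip_le zero_le_one _

theorem clSum_bounds (hc : 0 ≤ c) (hc1 : c < 1) (hH : 0 ≤ H) (h : Fin N → ℝ) {i : ℕ}
    (w : Fin i → ClD K N) :
    Real.exp (-(N * H + i * Lc c)) ≤ ∑ σ, fieldW H h σ * ∏ a, clW c (w a) σ ∧
      ∑ σ, fieldW H h σ * ∏ a, clW c (w a) σ ≤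
        Fintype.card (Fin N → Bool) * Real.exp (N * H + i * Lc c) := by
  refine sum_exp_bounds fun σ => ?_
  have h1 := fieldW_bounds hH h σ
  have h2 := prod_exp_bounds univ fun a (_ : a ∈ univ) => clW_bounds hc hc1 (w a) σ
  rw [card_univ, Fintype.card_fin] at h2
  rw [neg_add, Real.exp_add, Real.exp_add]
  exact ⟨mul_le_mul h1.1 h2.1 (Real.exp_pos _).le ((Real.exp_pos _).le.trans h1.1),
    mul_le_mul h1.2 h2.2 ((Real.exp_pos _).le.trans h2.1) (Real.exp_pos _).le⟩

theorem abs_clLog_le (hc : 0 ≤ c) (hc1 : c < 1) (hH : 0 ≤ H) (h : Fin N → ℝ) (i : ℕ)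
    (w : Fin i → ClD K N) : |clLog c H h i w| ≤ N * Real.log 2 + N * H + i * Lc c := by
  have h2 := abs_log_between (S := Fin N → Bool) (clSum_bounds hc hc1 hH h w)
  rw [Fintype.card_pi_const, Fintype.card_bool] at h2
  push_cast at h2
  rw [Real.log_pow] at h2
  unfold clLog
  linarith

theorem measurable_clLog (i : ℕ) :
    Measurable fun q : (Fin N → ℝ) × (Fin i → ClD K N) => clLog c H q.1 i q.2 := by
  refine Real.measurable_log.comp (Finset.measurable_sum _ fun σ _ => ?_)
  refine (Real.measurable_exp.comp (Finset.measurable_sum _ fun l _ => ((measurable_clip H).comp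
    ((measurable_pi_apply l).comp measurable_fst)).mul_const _)).mul
      (Finset.measurable_prod _ fun a _ => ?_)
  have hw : Measurable fun q : (Fin N → ℝ) × (Fin i → ClD K N) => q.2 a :=
    (measurable_pi_apply a).comp measurable_snd
  exact measurable_const.add (((measurable_clip c).comp
    (measurable_fst.comp (measurable_fst.comp hw))).mul (Finset.measurable_prod _ fun j _ =>
      (measurable_clip 1).comp (measurable_eval₂.comp
        (((measurable_pi_apply j).comp (measurable_snd.comp (measurable_fst.comp hw))).prodMk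
          ((measurable_of_countable σ).comp ((measurable_pi_apply j).comp
            (measurable_snd.comp hw)))))))

/-- All slots clauses or edge terms. -/
theorem log_genNested_true (hm : ∀ i, 0 < m i) (hc : 0 ≤ c) (hc1 : c < 1) (hH : 0 ≤ H)
    (hx : Measurable x) (hb : ∀ ω, |x ω| ≤ 1) {M : ℕ} (q : (Fin N → ℝ) × (Fin M → Slot0 K N)) :
    Real.log (genNested (piUnif (Fin M × Fin K)) m (Yfun x c H (fun _ => true) q)) =
      onList (clLog c H q.1) (selImage isCl projC q.2) +
        ∑ k, if isCl (q.2 k) = true then 0 else edLog m x c (projE (q.2 k)) := by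
  set S := univ.filter fun k => isCl (q.2 k) = true with hS
  set S' := univ.filter fun k => ¬isCl (q.2 k) = true with hS'
  set A := ∑ σ, fieldW H q.1 σ * ∏ k ∈ S, clW c (projC (q.2 k)) σ with hA
  have hY : Yfun x c H (fun _ => true) q = fun ω => A *
      ∏ k ∈ S', edF x c (projE (q.2 k)) fun p j => ω p (k, j) := by
    funext ω
    rw [Yfun, hA, sum_mul]
    refine sum_congr rfl fun σ _ => ?_
    rw [← prod_filter_mul_prod_filter_not univ (fun k => isCl (q.2 k) = true), mul_assoc]
    congr 2
    · exact prod_congr rfl fun k hk => slotY_true_zero _ (mem_filter.1 hk).2 _ _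
    · exact prod_congr rfl fun k hk => slotY_true_succ _ (mem_filter.1 hk).2 _ _
  have hApos : 0 < A := sum_pos (fun σ _ => mul_pos (Real.exp_pos _)
    (prod_pos fun k _ => (Real.exp_pos _).trans_le (clW_bounds hc hc1 _ σ).1)) univ_nonempty
  have hnn : ∀ k ω, 0 ≤ edF x c (projE (q.2 k)) ω := fun k ω =>
    (Real.exp_pos _).le.trans (edF_bounds hc hc1 hb _ ω).1
  rw [hY, genNested_const_mul _ hApos.le m hm _ fun ω => prod_nonneg fun k _ => hnn k _,
    genNested_family (fun _ : Fin M => Fin K) (fun k j => (k, j))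
      (fun k _ _ h => (Prod.ext_iff.1 h).2)
      (fun k l hkl a b h => hkl (Prod.ext_iff.1 h).1) m
      (fun k => edF x c (projE (q.2 k)))
      (fun k => (measurable_edF hx).comp (f := fun ω => (projE (q.2 k), ω))
        (measurable_const.prodMk measurable_id))
      (fun k ω => hnn k ω) (genNested_one _ m hm) S']
  have hg : ∀ k, 0 < genNested (piUnif (Fin K)) m (edF x c (projE (q.2 k))) := fun k =>
    (Real.exp_pos _).trans_le (edGen_bounds hm hc hc1 hx hb _).1
  rw [Real.log_mul hApos.ne' (prod_pos fun k _ => hg k).ne', Real.log_prod fun k _ => (hg k).ne']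
  congr 1
  · rw [selImage_eq, onList_ofFn]
    simp only [clLog, hA, hS, prod_sel isCl q.2]
  · rw [hS', sum_filter]
    refine sum_congr rfl fun k _ => ?_
    by_cases h : isCl (q.2 k) = true <;> simp [h, edLog]

/-- All slots site terms. -/
theorem log_genNested_false (hm : ∀ i, 0 < m i) (hc : 0 ≤ c) (hc1 : c < 1) (hH : 0 ≤ H)
    (hx : Measurable x) (hb : ∀ ω, |x ω| ≤ 1) {M : ℕ} (q : (Fin N → ℝ) × (Fin M → Slot0 K N)) :
    Real.log (genNested (piUnif (Fin M × Fin K)) m (Yfun x c H (fun _ => false) q)) =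
      ∑ i, onList (siLog m x c H (q.1 i)) (selImage (atSite i) projS q.2) := by
  set L : Fin N → List (Fin M) := fun i => selList (atSite i) q.2 with hLdef
  set w : ∀ i, Fin (L i).length → SiD K := fun i a => projS (q.2 ((L i).get a)) with hw
  have hsite : ∀ i a, siteOf (q.2 ((L i).get a)) = i := fun i a => by
    have h := List.get_mem (L i) a
    simp only [hLdef, selList, List.mem_filter, List.mem_finRange, true_and, atSite,
      decide_eq_true_eq] at h
    exact h
  have hY : Yfun x c H (fun _ => false) q = fun ω =>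
      ∏ i, siY x c H (q.1 i) (w i) fun p (a : Fin (L i).length × Fin K) =>
        ω p ((L i).get a.1, a.2) := by
    funext ω
    simp only [Yfun, siY, slotY_false]
    rw [Fintype.prod_sum]
    refine sum_congr rfl fun σ _ => ?_
    rw [fieldW, Real.exp_sum, ← prod_fiberwise univ (fun k => siteOf (q.2 k)), ← prod_mul_distrib]
    refine prod_congr rfl fun i _ => ?_
    congr 1
    have h1 : ∀ G : Fin M → ℝ, ∏ k ∈ univ.filter (fun k => siteOf (q.2 k) = i), G k =
        ∏ a, G ((L i).get a) := fun G => by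
      rw [← prod_sel (atSite i) q.2 G]
      simp [atSite]
    rw [h1]
    refine prod_congr rfl fun a _ => ?_
    rw [hsite]
    rfl
  have hnn : ∀ i ω, 0 ≤ siY x c H (q.1 i) (w i) ω := fun i ω =>
    (Real.exp_pos _).le.trans (siY_bounds hc hc1 hH hb _ _ ω).1
  have hmeas : ∀ i, Measurable (siY x c H (q.1 i) (w i)) := fun i =>
    (measurable_siY hx _).comp (f := fun ω => ((q.1 i, w i), ω))
      (measurable_const.prodMk measurable_id)
  rw [hY, genNested_family (fun i => Fin (L i).length × Fin K)
    (fun i a => ((L i).get a.1, a.2))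
    (fun i a b h => Prod.ext
      (((List.nodup_finRange M).filter _).injective_get (Prod.ext_iff.1 h).1) (Prod.ext_iff.1 h).2)
    (fun i l hil a b h => hil (by
      rw [← hsite i a.1, show (L i).get a.1 = (L l).get b.1 from (Prod.ext_iff.1 h).1, hsite]))
    m (fun i => siY x c H (q.1 i) (w i)) hmeas hnn (genNested_one _ m hm) univ]
  rw [Real.log_prod fun i _ => ((Real.exp_pos _).trans_le (genNested_bounds _ m hm _ (hmeas i)
    (Real.exp_pos _) (siY_bounds hc hc1 hH hb (q.1 i) (w i))).1).ne']
  refine sum_congr rfl fun i _ => ?_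
  rw [selImage_eq, onList_ofFn]
  rfl

end

end Vale.Agent.P168.Upper
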