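import Vale.Agent.P168.Upper.Slot
import Vale.Agent.P168.Upper.Trees

/-! The interpolation for a fixed number of slots and fixed branching numbers. -/

open MeasureTheory ProbabilityTheory Finset
open scoped BigOperators ENNReal

namespace Vale.Agent.P168.Upper

noncomputable section

instance unifFin_isProb (α : Type) [Fintype α] [Nonempty α] [MeasurableSpace α]
    [MeasurableSingletonClass α] : IsProbabilityMeasure (unifFin α) := by
  constructor
  simp [unifFin, ENNReal.inv_mul_cancel]

theorem integral_unifFin {α : Type} [Fintype α] [MeasurableSpace α]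
    [MeasurableSingletonClass α] (f : α → ℝ) :
    ∫ a, f a ∂unifFin α = (Fintype.card α : ℝ)⁻¹ * ∑ a, f a := by
  rw [unifFin, integral_smul_measure, integral_fintype Integrable.of_finite]
  simp [measureReal_def, Finset.smul_sum]

/-- Clipping to `[-c, c]`. -/
def clip (c t : ℝ) : ℝ := max (-c) (min c t)

theorem measurable_clip (c : ℝ) : Measurable (clip c) :=
  measurable_const.max (measurable_const.min measurable_id)

theorem abs_clip_le {c : ℝ} (hc : 0 ≤ c) (t : ℝ) : |clip c t| ≤ c :=
  abs_le.2 ⟨le_max_left _ _, max_le (by linarith) (min_le_left _ _)⟩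

theorem clip_eq {c t : ℝ} (h : |t| ≤ c) : clip c t = t := by
  rw [clip, min_eq_right (abs_le.1 h).2, max_eq_right (abs_le.1 h).1]

/-- The factor averaged over one spin of magnetisation `y`. -/
def favg (f : Bool → ℝ) (y : ℝ) : ℝ :=
  (clip 1 (f true) * (1 + y) + clip 1 (f false) * (1 - y)) / 2

theorem abs_favg_le (f : Bool → ℝ) {y : ℝ} (hy : |y| ≤ 1) : |favg f y| ≤ 1 := by
  obtain ⟨h1, h2⟩ := abs_le.1 hy
  obtain ⟨a1, a2⟩ := abs_le.1 (abs_clip_le zero_le_one (f true))
  obtain ⟨b1, b2⟩ := abs_le.1 (abs_clip_le zero_le_one (f false))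
  rw [favg, abs_le]
  constructor <;>
    nlinarith [mul_le_mul_of_nonneg_right a1 (by linarith : (0 : ℝ) ≤ 1 + y),
      mul_le_mul_of_nonneg_right a2 (by linarith : (0 : ℝ) ≤ 1 + y),
      mul_le_mul_of_nonneg_right b1 (by linarith : (0 : ℝ) ≤ 1 - y),
      mul_le_mul_of_nonneg_right b2 (by linarith : (0 : ℝ) ≤ 1 - y)]

variable (K N r : ℕ) (n : Fin r → ℕ)

/-- The data of one coordinate of a slot: `f`, a site, the level-zero variable and a tree of
message variables. -/
abbrev Coord := (Bool → ℝ) × Fin N × ℝ × CascTree ℝ r n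

/-- A slot: a kind (or position), `b` and the coordinates. -/
abbrev SlotT := Fin K × ℝ × (Fin K → Coord N r n)

/-- Fields and weight tree. -/
abbrev Base := (Fin N → ℝ) × CascTree Unit r n

/-- The law of a coordinate. -/
def coordLaw (νf : Measure (Bool → ℝ)) : Measure (Coord N r n) :=
  νf.prod ((unifFin (Fin N)).prod (unif.prod (cascLaw unif r n)))

/-- The law of a slot. -/
def slotLaw (νb : Measure ℝ) (νf : Measure (Bool → ℝ)) : Measure (SlotT K N r n) :=
  (unifFin (Fin K)).prod (νb.prod (Measure.pi fun _ => coordLaw N r n νf))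

/-- The law of the fields and the weight tree. -/
def baseLaw (Q : Measure ℝ) : Measure (Base N r n) :=
  (Measure.pi fun _ => Q).prod (cascLaw (Measure.dirac ()) r n)

variable {K N r n} (m : Fin r → ℝ) (x : (Fin (r + 1) → ℝ) → ℝ) (c H : ℝ)

/-- The message of a coordinate at a leaf. -/
def msgAt (d : Coord N r n) (α : Leaf n) : ℝ :=
  x (Fin.cons d.2.2.1 (leafMarks r n d.2.2.2 α))

/-- The spin version of a coordinate. -/
def zSpin (d : Coord N r n) (a : Leaf n × (Fin N → Bool)) : ℝ := clip 1 (d.1 (a.2 d.2.1))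

/-- The message version of a coordinate. -/
def zMsg (d : Coord N r n) (a : Leaf n × (Fin N → Bool)) : ℝ := favg d.1 (msgAt x d a.1)

/-- The coordinates carrying spins: kind `true` is clause or edge term, `false` site term. -/
def sel (k : Bool) (ℓ : Fin K) : Finset (Fin K) := if k then selA ℓ else selB ℓ

/-- The weight of a slot. -/
def slotW (k : Bool) (s : SlotT K N r n) (a : Leaf n × (Fin N → Bool)) : ℝ :=
  1 + clip c s.2.1 * ∏ j, if j ∈ sel k s.1 then zSpin (s.2.2 j) a else zMsg x (s.2.2 j) a

/-- The external field factor of a configuration. -/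
def fieldW (h : Fin N → ℝ) (σ : Fin N → Bool) : ℝ :=
  Real.exp (∑ i, clip H (h i) * spin (σ i))

/-- The normalised weight of a leaf and a configuration, without slots. -/
def baseW (z : Base N r n) (a : Leaf n × (Fin N → Bool)) : ℝ :=
  |leafWt r m n z.2 a.1| * fieldW H z.1 a.2 / ∑ α, |leafWt r m n z.2 α|

/-- `log` of the normalised partition function. -/
def logZ {M : ℕ} (κ : Fin M → Bool) (z : Base N r n × (Fin M → SlotT K N r n)) : ℝ :=
  Real.log (∑ a, baseW m H z.1 a * ∏ k, slotW x c (κ k) (z.2 k) a)

/-- The interpolating pressure. -/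
def interp (νb : Measure ℝ) (νf : Measure (Bool → ℝ)) (Q : Measure ℝ) {M : ℕ}
    (κ : Fin M → Bool) : ℝ :=
  ∫ z, logZ m x c H κ z
    ∂(baseLaw N r n Q).prod (Measure.pi fun _ : Fin M => slotLaw K N r n νb νf)

variable {m x c H}

theorem baseW_nonneg (z : Base N r n) (a : Leaf n × (Fin N → Bool)) : 0 ≤ baseW m H z a :=
  div_nonneg (mul_nonneg (abs_nonneg _) (Real.exp_pos _).le)
    (Finset.sum_nonneg fun _ _ => abs_nonneg _)

theorem measurable_baseW (a : Leaf n × (Fin N → Bool)) :
    Measurable fun z : Base N r n => baseW m H z a := by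
  have hw : ∀ α, Measurable fun z : Base N r n => |leafWt r m n z.2 α| := fun α =>
    ((measurable_leafWt r m n α).comp measurable_snd).abs
  have hh : ∀ i, Measurable fun z : Base N r n => clip H (z.1 i) := fun i =>
    (measurable_clip H).comp ((measurable_pi_apply i).comp measurable_fst)
  exact ((hw _).mul (Real.measurable_exp.comp
    (Finset.measurable_sum _ fun i _ => (hh i).mul_const _))).div
    (Finset.measurable_sum _ fun α _ => hw α)

theorem measurable_zSpin (a : Leaf n × (Fin N → Bool)) :
    Measurable fun d : Coord N r n => zSpin d a := by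
  have h1 : Measurable fun q : (Bool → ℝ) × Bool => q.1 q.2 :=
    measurable_from_prod_countable_left fun b => measurable_pi_apply b
  exact (measurable_clip 1).comp (h1.comp (measurable_fst.prodMk
    ((measurable_of_countable a.2).comp (measurable_fst.comp measurable_snd))))

theorem measurable_msgAt (hx : Measurable x) (α : Leaf n) :
    Measurable fun d : Coord N r n => msgAt x d α := by
  refine hx.comp (measurable_pi_lambda _ fun p => ?_)
  cases p using Fin.cases with
  | zero =>
    simp only [Fin.cons_zero]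
    exact measurable_fst.comp (measurable_snd.comp measurable_snd)
  | succ p =>
    simp only [Fin.cons_succ]
    exact (measurable_pi_apply p).comp ((measurable_leafMarks r n α).comp
      (measurable_snd.comp (measurable_snd.comp measurable_snd)))

theorem measurable_zMsg (hx : Measurable x) (a : Leaf n × (Fin N → Bool)) :
    Measurable fun d : Coord N r n => zMsg x d a := by
  have hf : ∀ b : Bool, Measurable fun d : Coord N r n => clip 1 (d.1 b) := fun b =>
    (measurable_clip 1).comp ((measurable_pi_apply b).comp measurable_fst)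
  have hy := measurable_msgAt (N := N) hx a.1
  exact (((hf true).mul (hy.const_add 1)).add ((hf false).mul (measurable_const.sub hy))).div_const 2

theorem measurable_slotW (hx : Measurable x) (k : Bool) (a : Leaf n × (Fin N → Bool)) :
    Measurable fun s : SlotT K N r n => slotW x c k s a := by
  refine measurable_const.add (((measurable_clip c).comp (measurable_fst.comp measurable_snd)).mul
    (Finset.measurable_prod _ fun j _ => ?_))
  have hd : Measurable fun s : SlotT K N r n => s.2.2 j :=
    (measurable_pi_apply j).comp (measurable_snd.comp measurable_snd)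
  exact Measurable.ite ((Set.toFinite {ℓ | j ∈ sel k ℓ}).measurableSet.preimage measurable_fst)
    ((measurable_zSpin a).comp hd) ((measurable_zMsg hx a).comp hd)

theorem slotW_bounds (hc : 0 ≤ c) (hb : ∀ ω, |x ω| ≤ 1) (k : Bool) (s : SlotT K N r n)
    (a : Leaf n × (Fin N → Bool)) : 1 - c ≤ slotW x c k s a ∧ slotW x c k s a ≤ 1 + c := by
  have h : |clip c s.2.1 *
      ∏ j, if j ∈ sel k s.1 then zSpin (s.2.2 j) a else zMsg x (s.2.2 j) a| ≤ c := by
    rw [abs_mul, abs_prod]
    refine (mul_le_of_le_one_right (abs_nonneg _)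
      (prod_le_one (fun j _ => abs_nonneg _) fun j _ => ?_)).trans (abs_clip_le hc _)
    split_ifs
    · exact abs_clip_le zero_le_one _
    · exact abs_favg_le _ (hb _)
  obtain ⟨h1, h2⟩ := abs_le.1 h
  unfold slotW
  constructor <;> linarith

theorem measurable_logZ (hx : Measurable x) {M : ℕ} (κ : Fin M → Bool) :
    Measurable (logZ (K := K) (N := N) (n := n) m x c H κ) :=
  Real.measurable_log.comp (Finset.measurable_sum _ fun a _ =>
    ((measurable_baseW a).comp measurable_fst).mul (Finset.measurable_prod _ fun k _ =>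
      (measurable_slotW hx (κ k) a).comp ((measurable_pi_apply k).comp measurable_snd)))

theorem fieldW_bounds (hH : 0 ≤ H) (h : Fin N → ℝ) (σ : Fin N → Bool) :
    Real.exp (-(N * H)) ≤ fieldW H h σ ∧ fieldW H h σ ≤ Real.exp (N * H) := by
  have hb : |∑ i, clip H (h i) * spin (σ i)| ≤ N * H := by
    refine (abs_sum_le_sum_abs _ _).trans ((sum_le_sum fun i _ => ?_).trans_eq (b := ∑ _i : Fin N, H)
      (by simp))
    rw [abs_mul]
    have : |spin (σ i)| = 1 := by unfold spin; split_ifs <;> simp
    rw [this, mul_one]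
    exact abs_clip_le hH _
  exact ⟨Real.exp_le_exp.2 (abs_le.1 hb).1, Real.exp_le_exp.2 (abs_le.1 hb).2⟩

/-- A bound on `logZ` independent of all the randomness. -/
def zBound (N M : ℕ) (c H : ℝ) : ℝ := N * Real.log 2 + N * H + M * -Real.log (1 - c)

theorem abs_log_weighted_le {ι : Type} [Fintype ι] [Nonempty ι] {w v : ι → ℝ} {lo hi : ℝ}
    (hw : ∀ i, 0 ≤ w i) (hlo : 0 < lo) (hv : ∀ i, lo ≤ v i ∧ v i ≤ hi) (hW : 0 < ∑ i, w i) :
    Real.log lo + Real.log (∑ i, w i) ≤ Real.log (∑ i, w i * v i) ∧
      Real.log (∑ i, w i * v i) ≤ Real.log hi + Real.log (∑ i, w i) := by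
  have hhi : 0 < hi := lt_of_lt_of_le hlo ((hv (Classical.arbitrary ι)).1.trans (hv _).2)
  have h1 : lo * ∑ i, w i ≤ ∑ i, w i * v i := by
    rw [mul_sum]
    exact sum_le_sum fun i _ => by
      rw [mul_comm]; exact mul_le_mul_of_nonneg_left (hv i).1 (hw i)
  have h2 : ∑ i, w i * v i ≤ hi * ∑ i, w i := by
    rw [mul_sum]
    exact sum_le_sum fun i _ => by
      rw [mul_comm hi]; exact mul_le_mul_of_nonneg_left (hv i).2 (hw i)
  constructor
  · rw [← Real.log_mul hlo.ne' hW.ne']
    exact Real.log_le_log (by positivity) h1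
  · rw [← Real.log_mul hhi.ne' hW.ne']
    exact Real.log_le_log (lt_of_lt_of_le (by positivity) h1) h2

theorem abs_logZ_le (hc : 0 ≤ c) (hc1 : c < 1) (hH : 0 ≤ H) (hb : ∀ ω, |x ω| ≤ 1) {M : ℕ}
    (κ : Fin M → Bool) (z : Base N r n × (Fin M → SlotT K N r n)) :
    |logZ m x c H κ z| ≤ zBound N M c H := by
  have hL : 0 ≤ -Real.log (1 - c) := by
    have := Real.log_nonpos (by linarith : 0 ≤ 1 - c) (by linarith)
    linarith
  have h0 : 0 ≤ zBound N M c H :=
    add_nonneg (add_nonneg (mul_nonneg (Nat.cast_nonneg _) (Real.log_nonneg one_le_two))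
      (mul_nonneg (Nat.cast_nonneg _) hH)) (mul_nonneg (Nat.cast_nonneg _) hL)
  rcases (Finset.sum_nonneg fun α _ => abs_nonneg (leafWt r m n z.1.2 α) :
      0 ≤ ∑ α : Leaf n, |leafWt r m n z.1.2 α|).eq_or_lt with h | h
  · have hz : ∀ a, baseW m H z.1 a = 0 := fun a => by simp [baseW, ← h]
    simpa [logZ, hz] using h0
  have hne : Nonempty (Leaf n) := by
    by_contra hne
    rw [not_nonempty_iff] at hne
    simp at h
  set w : Leaf n → ℝ := fun α => |leafWt r m n z.1.2 α| / ∑ α, |leafWt r m n z.1.2 α| with hw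
  have hw0 : ∀ α, 0 ≤ w α := fun α => div_nonneg (abs_nonneg _) h.le
  have hw1 : ∑ α, w α = 1 := by
    simp only [hw, ← sum_div]
    exact div_self h.ne'
  have hsum : (∑ a : Leaf n × (Fin N → Bool), w a.1) = (2 : ℝ) ^ N := by
    rw [Fintype.sum_prod_type]
    simp [← Finset.mul_sum, hw1]
  have hprod : ∀ a, (1 - c) ^ M ≤ ∏ k, slotW x c (κ k) (z.2 k) a ∧
      ∏ k, slotW x c (κ k) (z.2 k) a ≤ (1 + c) ^ M := fun a => by
    constructor
    · refine le_of_eq_of_le (by simp) (prod_le_prod (fun k _ => by linarith : ∀ k ∈ univ, (0 : ℝ) ≤ 1 - c)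
        fun k _ => (slotW_bounds hc hb (κ k) (z.2 k) a).1)
    · refine le_of_le_of_eq (prod_le_prod (fun k _ => ?_)
        fun k _ => (slotW_bounds hc hb (κ k) (z.2 k) a).2) (by simp)
      linarith [(slotW_bounds hc hb (κ k) (z.2 k) a).1]
  have hv : ∀ a : Leaf n × (Fin N → Bool),
      Real.exp (-(N * H)) * (1 - c) ^ M ≤ fieldW H z.1.1 a.2 * ∏ k, slotW x c (κ k) (z.2 k) a ∧
        fieldW H z.1.1 a.2 * ∏ k, slotW x c (κ k) (z.2 k) a ≤ Real.exp (N * H) * (1 + c) ^ M := by
    intro a
    have hp : (0 : ℝ) ≤ (1 - c) ^ M := pow_nonneg (by linarith) _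
    constructor
    · exact mul_le_mul (fieldW_bounds hH _ _).1 (hprod a).1 hp (Real.exp_pos _).le
    · exact mul_le_mul (fieldW_bounds hH _ _).2 (hprod a).2 (hp.trans (hprod a).1)
        (Real.exp_pos _).le
  have hb2 := abs_log_weighted_le (w := fun a : Leaf n × (Fin N → Bool) => w a.1)
    (fun a => hw0 a.1) (mul_pos (Real.exp_pos _) (pow_pos (by linarith) _)) hv
    (by rw [hsum]; positivity)
  have he : ∑ a : Leaf n × (Fin N → Bool), w a.1 * (fieldW H z.1.1 a.2 *
      ∏ k, slotW x c (κ k) (z.2 k) a) = ∑ a, baseW m H z.1 a * ∏ k, slotW x c (κ k) (z.2 k) a := by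
    refine sum_congr rfl fun a _ => ?_
    simp only [baseW, hw]
    ring
  rw [he, hsum, Real.log_mul (Real.exp_pos _).ne' (pow_pos (by linarith) _).ne',
    Real.log_mul (Real.exp_pos _).ne' (pow_pos (by linarith) _).ne', Real.log_exp, Real.log_exp,
    Real.log_pow, Real.log_pow, Real.log_pow] at hb2
  have hlog : Real.log (1 + c) ≤ -Real.log (1 - c) := by
    have : Real.log (1 + c) + Real.log (1 - c) ≤ 0 := by
      rw [← Real.log_mul (by linarith) (by linarith)]
      exact Real.log_nonpos (by nlinarith) (by nlinarith)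
    linarith
  have hM := mul_le_mul_of_nonneg_left hlog (Nat.cast_nonneg (α := ℝ) M)
  have hN2 : 0 ≤ (N : ℝ) * Real.log 2 :=
    mul_nonneg (Nat.cast_nonneg _) (Real.log_nonneg one_le_two)
  rw [abs_le]
  unfold logZ zBound
  constructor <;> linarith [hb2.1, hb2.2]

variable {νb : Measure ℝ} {νf : Measure (Bool → ℝ)} {Q : Measure ℝ} [IsProbabilityMeasure νb]
  [IsProbabilityMeasure νf] [IsProbabilityMeasure Q]

instance [NeZero N] : IsProbabilityMeasure (coordLaw N r n νf) := by
  unfold coordLaw; infer_instance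

instance [NeZero K] [NeZero N] : IsProbabilityMeasure (slotLaw K N r n νb νf) := by
  unfold slotLaw; infer_instance

instance : IsProbabilityMeasure (baseLaw N r n Q) := by
  unfold baseLaw; infer_instance

theorem interp_step [NeZero K] [NeZero N] (hK : Even K) (hc : 0 ≤ c) (hc1 : c < 1) (hH : 0 ≤ H)
    (hx : Measurable x) (hb : ∀ ω, |x ω| ≤ 1)
    (hpos : ∀ i : ℕ, 1 ≤ i → 0 ≤ ∫ b, (-clip c b) ^ i ∂νb) {M : ℕ} (κ : Fin M → Bool)
    (k : Fin M) :
    interp (K := K) (N := N) (n := n) m x c H νb νf Q (Function.update κ k true) ≤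
      interp (K := K) (N := N) (n := n) m x c H νb νf Q (Function.update κ k false) := by
  obtain ⟨M, rfl⟩ : ∃ M', M = M' + 1 := ⟨M - 1, by have := k.pos; omega⟩
  set μ := slotLaw K N r n νb νf with hμ
  have hmp : MeasurePreserving (fun q : (Base N r n × (Fin M → SlotT K N r n)) × SlotT K N r n =>
      (q.1.1, k.insertNth q.2 q.1.2))
      (((baseLaw N r n Q).prod (Measure.pi fun _ => μ)).prod μ)
      ((baseLaw N r n Q).prod (Measure.pi fun _ : Fin (M + 1) => μ)) :=
    ((MeasurePreserving.id _).prod ((measurePreserving_piFinSuccAbove (fun _ => μ) k).symm.comp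
      Measure.measurePreserving_swap)).comp (measurePreserving_prodAssoc _ _ _)
  have hval : ∀ v : Bool, interp (K := K) (N := N) (n := n) m x c H νb νf Q (Function.update κ k v) =
      ∫ q, (K : ℝ)⁻¹ * ∑ ℓ, ∫ y : ℝ × (Fin K → Coord N r n),
        Real.log (∑ a, (baseW m H q.1 a * ∏ i, slotW x c (κ (k.succAbove i)) (q.2 i) a) *
          (1 + clip c y.1 * ∏ j, if j ∈ sel v ℓ then zSpin (y.2 j) a else zMsg x (y.2 j) a))
          ∂νb.prod (Measure.pi fun _ => coordLaw N r n νf)
        ∂(baseLaw N r n Q).prod (Measure.pi fun _ : Fin M => μ) := by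
    intro v
    have hmeas := measurable_logZ (K := K) (N := N) (n := n) (m := m) (c := c) (H := H) hx
      (Function.update κ k v)
    have hint : Integrable (fun q : (Base N r n × (Fin M → SlotT K N r n)) × SlotT K N r n =>
        logZ m x c H (Function.update κ k v) (q.1.1, k.insertNth q.2 q.1.2))
        (((baseLaw N r n Q).prod (Measure.pi fun _ => μ)).prod μ) :=
      Integrable.of_bound (hmeas.comp hmp.measurable).aestronglyMeasurable (zBound N (M + 1) c H)
        (ae_of_all _ fun q => abs_logZ_le hc hc1 hH hb _ _)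
    rw [interp, ← integral_mp hmp hmeas, integral_prod _ hint]
    refine integral_congr_ae (ae_of_all _ fun q => ?_)
    simp only
    have hg : ∀ s, logZ m x c H (Function.update κ k v) (q.1, k.insertNth s q.2) =
        Real.log (∑ a, (baseW m H q.1 a * ∏ i, slotW x c (κ (k.succAbove i)) (q.2 i) a) *
          slotW x c v s a) := by
      intro s
      unfold logZ
      congr 1
      refine sum_congr rfl fun a _ => ?_
      rw [Fin.prod_univ_succAbove _ k]
      simp [Fin.succAbove_ne]
      ring
    simp only [hg]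
    have hm' : Measurable fun s : SlotT K N r n => Real.log (∑ a,
        (baseW m H q.1 a * ∏ i, slotW x c (κ (k.succAbove i)) (q.2 i) a) * slotW x c v s a) := by
      convert (measurable_logZ hx (Function.update κ k v)).comp
        (f := fun s => (q.1, k.insertNth s q.2)) ((measurable_const (a := q.1)).prodMk
          ((measurePreserving_piFinSuccAbove (fun _ => μ) k).symm.measurable.comp
            (measurable_id.prodMk (measurable_const (a := q.2))))) using 1
      funext s
      exact (hg s).symm
    rw [hμ, slotLaw, integral_prod _ (Integrable.of_bound hm'.aestronglyMeasurable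
      (zBound N (M + 1) c H) (ae_of_all _ fun s => ?_)), integral_unifFin, Fintype.card_fin]
    · rfl
    · rw [Real.norm_eq_abs]
      exact (hg s) ▸ abs_logZ_le hc hc1 hH hb _ _
  have hbound : ∀ v : Bool, Integrable (fun q : Base N r n × (Fin M → SlotT K N r n) =>
      (K : ℝ)⁻¹ * ∑ ℓ, ∫ y : ℝ × (Fin K → Coord N r n),
        Real.log (∑ a, (baseW m H q.1 a * ∏ i, slotW x c (κ (k.succAbove i)) (q.2 i) a) *
          (1 + clip c y.1 * ∏ j, if j ∈ sel v ℓ then zSpin (y.2 j) a else zMsg x (y.2 j) a))
          ∂νb.prod (Measure.pi fun _ => coordLaw N r n νf))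
      ((baseLaw N r n Q).prod (Measure.pi fun _ : Fin M => μ)) := by
    intro v
    refine Integrable.const_mul (integrable_finsetSum _ fun ℓ _ => ?_) _
    have hmap : Measurable fun p : (Base N r n × (Fin M → SlotT K N r n)) ×
        (ℝ × (Fin K → Coord N r n)) =>
        (p.1.1, k.insertNth (α := fun _ => SlotT K N r n) (ℓ, p.2.1, p.2.2) p.1.2) :=
      (measurable_fst.comp measurable_fst).prodMk
        ((measurePreserving_piFinSuccAbove (fun _ => μ) k).symm.measurable.comp
          ((measurable_const.prodMk ((measurable_fst.comp measurable_snd).prodMk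
            (measurable_snd.comp measurable_snd))).prodMk (measurable_snd.comp measurable_fst)))
    have heq : ∀ p : (Base N r n × (Fin M → SlotT K N r n)) × (ℝ × (Fin K → Coord N r n)),
        logZ m x c H (Function.update κ k v) (p.1.1, k.insertNth (ℓ, p.2.1, p.2.2) p.1.2) =
        Real.log (∑ a, (baseW m H p.1.1 a * ∏ i, slotW x c (κ (k.succAbove i)) (p.1.2 i) a) *
          (1 + clip c p.2.1 * ∏ j, if j ∈ sel v ℓ then zSpin (p.2.2 j) a else zMsg x (p.2.2 j) a)) := by
      intro p
      unfold logZ
      congr 1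
      refine sum_congr rfl fun a _ => ?_
      rw [Fin.prod_univ_succAbove _ k]
      simp [Fin.succAbove_ne, slotW]
      ring
    have hm2 : Measurable fun p : (Base N r n × (Fin M → SlotT K N r n)) ×
        (ℝ × (Fin K → Coord N r n)) =>
        Real.log (∑ a, (baseW m H p.1.1 a * ∏ i, slotW x c (κ (k.succAbove i)) (p.1.2 i) a) *
          (1 + clip c p.2.1 * ∏ j, if j ∈ sel v ℓ then zSpin (p.2.2 j) a else zMsg x (p.2.2 j) a)) := by
      convert (measurable_logZ hx (Function.update κ k v)).comp hmap using 1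
      funext p
      exact (heq p).symm
    exact (Integrable.of_bound
      (μ := ((baseLaw N r n Q).prod (Measure.pi fun _ : Fin M => μ)).prod
        (νb.prod (Measure.pi fun _ => coordLaw N r n νf)))
      hm2.aestronglyMeasurable
      (zBound N (M + 1) c H) (ae_of_all _ fun p => by
        rw [Real.norm_eq_abs]
        exact (heq p) ▸ abs_logZ_le hc hc1 hH hb _ _)).integral_prod_left
  rw [hval true, hval false]
  refine integral_mono (hbound true) (hbound false) fun q => ?_
  refine mul_le_mul_of_nonneg_left ?_ (by positivity)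
  exact slot_ineq (coordLaw N r n νf) νb hc1 hc (clip c) (measurable_clip c) (abs_clip_le hc) hpos
    hK (Nat.one_le_iff_ne_zero.2 (NeZero.ne K))
    (fun a => mul_nonneg (baseW_nonneg _ _) (prod_nonneg fun i _ =>
      le_trans (by linarith) (slotW_bounds hc hb _ (q.2 i) a).1))
    (fun d a => abs_clip_le zero_le_one _) (fun d a => abs_favg_le _ (hb _))
    (fun a => measurable_zSpin a) (fun a => measurable_zMsg hx a)

/-- Replacing all slots. -/
theorem interp_le [NeZero K] [NeZero N] (hK : Even K) (hc : 0 ≤ c) (hc1 : c < 1) (hH : 0 ≤ H)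
    (hx : Measurable x) (hb : ∀ ω, |x ω| ≤ 1)
    (hpos : ∀ i : ℕ, 1 ≤ i → 0 ≤ ∫ b, (-clip c b) ^ i ∂νb) (M : ℕ) :
    interp (K := K) (N := N) (n := n) m x c H νb νf Q (fun _ : Fin M => true) ≤
      interp (K := K) (N := N) (n := n) m x c H νb νf Q (fun _ : Fin M => false) := by
  have h : ∀ S : Finset (Fin M),
      interp (K := K) (N := N) (n := n) m x c H νb νf Q (fun _ : Fin M => true) ≤
        interp (K := K) (N := N) (n := n) m x c H νb νf Q (fun k => decide (k ∉ S)) := by
    intro S
    induction S using Finset.induction_on with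
    | empty => simp
    | insert k S hk ih =>
      refine ih.trans ?_
      have e1 : (fun i => decide (i ∉ S)) = Function.update (fun i => decide (i ∉ S)) k true := by
        funext i
        by_cases hi : i = k
        · subst hi; simp [hk]
        · simp [hi]
      have e2 : (fun i => decide (i ∉ insert k S)) =
          Function.update (fun i => decide (i ∉ S)) k false := by
        funext i
        by_cases hi : i = k
        · subst hi; simp
        · simp [hi]
      rw [e1, e2]
      exact interp_step hK hc hc1 hH hx hb hpos _ k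
  simpa using h univ

end

end Vale.Agent.P168.Upper
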