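import Vale.Agent.P168.Upper.Averages

/-! The pressure and the trial functional in terms of the averages. -/

open MeasureTheory ProbabilityTheory Finset
open scoped BigOperators

namespace Vale.Agent.P168.Upper

noncomputable section

variable {K N r : ℕ}

/-- A factor from its data, with `a = 1`. -/
def mkF (c : ℝ) (w : Fac K) : Factor K := (1, clip c w.1, fun j s => clip 1 (w.2 j s))

theorem measurable_mkF (c : ℝ) : Measurable (mkF (K := K) c) :=
  measurable_const.prodMk (((measurable_clip c).comp measurable_fst).prodMk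
    (measurable_pi_lambda _ fun j => measurable_pi_lambda _ fun s => (measurable_clip 1).comp
      ((measurable_pi_apply s).comp ((measurable_pi_apply j).comp measurable_snd))))

theorem mp_mkF {P : Measure (Factor K)} {Q : Measure ℝ} {c H : ℝ} (hP : IsBoundedModel P Q c H)
    {νb : Measure ℝ} {νf : Measure (Bool → ℝ)}
    (hmap : P.map Prod.snd = νb.prod (Measure.pi fun _ : Fin K => νf)) :
    MeasurePreserving (mkF c) (facLaw K νb νf) P := by
  refine ⟨measurable_mkF c, ?_⟩
  rw [facLaw, ← hmap, Measure.map_map (measurable_mkF c) measurable_snd]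
  have e : mkF c ∘ Prod.snd =ᵐ[P] id := by
    filter_upwards [hP.bounds, hP.scale_one, hP.b_le] with θ h1 h2 h3
    simp only [Function.comp_apply, mkF, id_eq, clip_eq h3, clip_eq (h1.2.2 _ _)]
    exact Prod.ext h2.symm rfl
  rw [Measure.map_congr e, Measure.map_id]

theorem pi_unifFin [NeZero N] :
    (Measure.pi fun _ : Fin K => unifFin (Fin N)) = unifFin (Fin K → Fin N) := by
  refine Measure.ext_of_singleton fun a => ?_
  rw [Measure.pi_singleton]
  simp [unifFin, ENNReal.inv_pow]

theorem favg_eq_sum (f : Bool → ℝ) (y : ℝ) :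
    favg f y = ∑ s, clip 1 (f s) * ((1 + y * spin s) / 2) := by
  simp [favg, spin]
  ring

theorem factor_site_sum (ℓ : Fin K) (ε : Bool) (b : ℝ) (f p : Fin K → Bool → ℝ)
    (hp : ∀ j, ∑ s, p j s = 1) :
    ∑ σ : Fin K → Bool, (if σ ℓ = ε then
        (1 * (1 + b * ∏ j, f j (σ j))) * ∏ j ∈ univ.erase ℓ, p j (σ j) else 0) =
      1 + b * (f ℓ ε * ∏ j ∈ univ.erase ℓ, ∑ s, f j s * p j s) := by
  set g : Fin K → Bool → ℝ := fun j s => if j = ℓ then (if s = ε then 1 else 0) else p j s with hg
  have e : ∀ σ : Fin K → Bool, (if σ ℓ = ε then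
      (1 * (1 + b * ∏ j, f j (σ j))) * ∏ j ∈ univ.erase ℓ, p j (σ j) else 0) =
      (∏ j, g j (σ j)) + b * ∏ j, f j (σ j) * g j (σ j) := by
    intro σ
    have h1 : ∏ j, g j (σ j) = if σ ℓ = ε then ∏ j ∈ univ.erase ℓ, p j (σ j) else 0 := by
      rw [← mul_prod_erase univ _ (mem_univ ℓ),
        prod_congr rfl (g := fun j => p j (σ j)) fun j hj => by simp [hg, (mem_erase.1 hj).1]]
      simp [hg]
    rw [prod_mul_distrib, h1]
    split_ifs <;> ring
  have hg1 : ∀ j, ∑ s, g j s = 1 := fun j => by
    by_cases h : j = ℓ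
    · simp [hg, h]
    · simp only [hg, h, if_false]
      exact hp j
  simp only [e, sum_add_distrib, ← mul_sum, ← Fintype.prod_sum, hg1, prod_const_one]
  congr 2
  rw [← Fintype.prod_sum (fun j s => f j s * g j s), ← mul_prod_erase univ _ (mem_univ ℓ)]
  congr 1
  · simp [hg]
  · refine prod_congr rfl fun j hj => ?_
    simp [hg, (mem_erase.1 hj).1]

theorem factor_edge_sum (b : ℝ) (f p : Fin K → Bool → ℝ) (hp : ∀ j, ∑ s, p j s = 1) :
    ∑ σ : Fin K → Bool, (1 * (1 + b * ∏ j, f j (σ j))) * ∏ j, p j (σ j) =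
      1 + b * ∏ j, ∑ s, f j s * p j s := by
  simp only [one_mul, add_mul, mul_assoc, ← prod_mul_distrib, sum_add_distrib, ← mul_sum]
  rw [← Fintype.prod_sum (fun j s => p j s), ← Fintype.prod_sum (fun j s => f j s * p j s)]
  simp only [hp, prod_const_one]

theorem sum_half (y : ℝ) : ∑ s, (1 + y * spin s) / 2 = 1 := by
  simp [spin]
  ring

theorem measurable_factorWeight (σ : Fin K → Bool) :
    Measurable fun θ : Factor K => factorWeight θ σ :=
  measurable_fst.mul (((measurable_fst.comp measurable_snd).mul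
    (Finset.measurable_prod univ fun j _ => (measurable_pi_apply (σ j)).comp
      ((measurable_pi_apply j).comp (measurable_snd.comp measurable_snd)))).const_add 1)

theorem measurable_logPartition (i : ℕ) :
    Measurable fun q : (Fin i → Factor K × (Fin K → Fin N)) × (Fin N → ℝ) =>
      logPartition q.1 q.2 := by
  refine Real.measurable_log.comp (Finset.measurable_sum _ fun σ _ =>
    Real.measurable_exp.comp ((Finset.measurable_sum _ fun k _ => ?_).add
      (Finset.measurable_sum _ fun l _ =>
        ((measurable_pi_apply l).comp measurable_snd).mul_const _)))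
  have h : Measurable fun u : (Fin K → Fin N) × Factor K => theta u.2 fun j => σ (u.1 j) :=
    measurable_from_prod_countable_right fun v =>
      Real.measurable_log.comp (measurable_factorWeight fun j => σ (v j))
  have hk : Measurable fun q : (Fin i → Factor K × (Fin K → Fin N)) × (Fin N → ℝ) => q.1 k :=
    (measurable_pi_apply k).comp measurable_fst
  exact h.comp ((measurable_snd.comp hk).prodMk (measurable_fst.comp hk))

theorem measurable_siteTerm (i : ℕ) :
    Measurable fun q : ((Fin i → Factor K × Fin K) × ℝ) × (Fin i × Fin K → ℝ) =>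
      siteTerm q.1.1 q.1.2 q.2 := by
  refine Finset.measurable_sum _ fun ε _ => (Real.measurable_exp.comp
    ((measurable_snd.comp measurable_fst).mul_const _)).mul (Finset.measurable_prod _ fun k _ => ?_)
  have h : Measurable fun u : Fin K × (Factor K × (Fin K → ℝ)) => ∑ σ : Fin K → Bool,
      if σ u.1 = ε then
        factorWeight u.2.1 σ * ∏ j ∈ univ.erase u.1, (1 + u.2.2 j * spin (σ j)) / 2
      else 0 :=
    measurable_from_prod_countable_right fun ℓ => Finset.measurable_sum _ fun σ _ => by
      by_cases hs : σ ℓ = ε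
      · simp only [hs, if_true]
        exact ((measurable_factorWeight σ).comp measurable_fst).mul
          (Finset.measurable_prod (univ.erase ℓ) fun j _ =>
            ((((measurable_pi_apply j).comp measurable_snd).mul_const _).const_add 1).div_const 2)
      · simp only [hs, if_false]
        exact measurable_const
  have hk : Measurable fun q : ((Fin i → Factor K × Fin K) × ℝ) × (Fin i × Fin K → ℝ) => q.1.1 k :=
    (measurable_pi_apply k).comp (measurable_fst.comp measurable_fst)
  exact h.comp ((measurable_snd.comp hk).prodMk ((measurable_fst.comp hk).prodMk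
    (measurable_pi_lambda _ fun j => (measurable_pi_apply (k, j)).comp measurable_snd)))

theorem measurable_edgeTerm (i : ℕ) :
    Measurable fun q : (Fin i → Factor K) × (Fin i × Fin K → ℝ) => edgeTerm q.1 q.2 :=
  Finset.measurable_prod univ fun k _ => Finset.measurable_sum univ fun σ _ =>
    ((measurable_factorWeight σ).comp ((measurable_pi_apply k).comp measurable_fst)).mul
      (Finset.measurable_prod univ fun j _ =>
        ((((measurable_pi_apply (k, j)).comp measurable_snd).mul_const _).const_add 1).div_const 2)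

theorem measurable_msgsFlat {ι : Type} {x : (Fin (r + 1) → ℝ) → ℝ} (hx : Measurable x) :
    Measurable fun q : (ι → ℝ) × (Fin r → ι → ℝ) =>
      fun i => x (Fin.cons (q.1 i) fun p => q.2 p i) := by
  refine measurable_pi_lambda _ fun i => hx.comp (measurable_pi_lambda _ fun p => ?_)
  cases p using Fin.cases with
  | zero =>
    simp only [Fin.cons_zero]
    exact (measurable_pi_apply i).comp measurable_fst
  | succ p =>
    simp only [Fin.cons_succ]
    exact (measurable_pi_apply i).comp ((measurable_pi_apply p).comp measurable_snd)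

theorem measurable_logGen_msgs {E ι : Type} [MeasurableSpace E] [Fintype ι] (m : Fin r → ℝ)
    {x : (Fin (r + 1) → ℝ) → ℝ} (hx : Measurable x) (F : E → (ι → ℝ) → ℝ)
    (hF : Measurable fun q : E × (ι → ℝ) => F q.1 q.2) :
    Measurable fun q : E × (ι → ℝ) => Real.log (genNested (piUnif ι) m fun ω =>
      F q.1 fun a => x (Fin.cons (q.2 a) fun p => ω p a)) := by
  have h : Measurable fun q : (E × (ι → ℝ)) × (Fin r → ι → ℝ) =>
      F q.1.1 fun a => x (Fin.cons (q.1.2 a) fun p => q.2 p a) :=
    hF.comp (f := fun q : (E × (ι → ℝ)) × (Fin r → ι → ℝ) =>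
        (q.1.1, fun a => x (Fin.cons (q.1.2 a) fun p => q.2 p a)))
      ((measurable_fst.comp measurable_fst).prodMk ((measurable_msgsFlat hx).comp
        (f := fun q : (E × (ι → ℝ)) × (Fin r → ι → ℝ) => (q.1.2, q.2))
        ((measurable_snd.comp measurable_fst).prodMk measurable_snd)))
  exact Real.measurable_log.comp (measurable_genNested (piUnif ι) m
    (fun (q : E × (ι → ℝ)) ω => F q.1 fun a => x (Fin.cons (q.2 a) fun p => ω p a)) h)

variable {P : Measure (Factor K)} {Q : Measure ℝ} {c H lam : ℝ} {νb : Measure ℝ}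
  {νf : Measure (Bool → ℝ)} [IsProbabilityMeasure νb] [IsProbabilityMeasure νf]
  [IsProbabilityMeasure Q] [IsProbabilityMeasure P]

omit [IsProbabilityMeasure νb] [IsProbabilityMeasure νf] in
theorem mean_logPartition [NeZero N] (hmk : MeasurePreserving (mkF c) (facLaw K νb νf) P)
    [IsProbabilityMeasure νb] [IsProbabilityMeasure νf] (hc : 0 ≤ c) (hc1 : c < 1)
    (hQ : ∀ᵐ h ∂Q, |h| ≤ H) (i : ℕ) :
    ∫ d : Fin i → Factor K × (Fin K → Fin N), ∫ h : Fin N → ℝ, logPartition d h
        ∂(Measure.pi fun _ => Q) ∂(Measure.pi fun _ => P.prod (unifFin (Fin K → Fin N))) =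
      clMean νb νf Q K N c H i := by
  have he : MeasurePreserving
      (fun w : Fin i → ClD K N => fun a => (mkF c (w a).1, (w a).2))
      (Measure.pi fun _ => clLaw νb νf K N)
      (Measure.pi fun _ => P.prod (unifFin (Fin K → Fin N))) := by
    rw [← pi_unifFin]
    exact mp_pi (hmk.prod (MeasurePreserving.id _))
  rw [← integral_mp he
    ((measurable_logPartition i).stronglyMeasurable.integral_prod_right'
      (ν := Measure.pi fun _ : Fin N => Q)).measurable]
  refine integral_congr_ae (ae_of_all _ fun w => integral_congr_ae ?_)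
  have hall : ∀ᵐ h ∂(Measure.pi fun _ : Fin N => Q), ∀ l, |h l| ≤ H :=
    ae_all_iff.2 fun l =>
      (Measure.tendsto_eval_ae_ae (i := l) (μ := fun _ : Fin N => Q)).eventually
        (p := fun h : ℝ => |h| ≤ H) hQ
  filter_upwards [hall] with h hh
  unfold logPartition clLog
  congr 1
  refine sum_congr rfl fun σ _ => ?_
  rw [hamiltonian, Real.exp_add, Real.exp_sum, mul_comm]
  congr 1
  · simp only [fieldW, clip_eq (hh _)]
  · refine prod_congr rfl fun a _ => ?_
    have hpos := (Real.exp_pos _).trans_le (clW_bounds hc hc1 (w a) σ).1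
    simp only [theta, factorWeight, mkF, one_mul]
    exact Real.exp_log hpos

theorem pressure_eq [NeZero N] (hmk : MeasurePreserving (mkF c) (facLaw K νb νf) P) (hc : 0 ≤ c)
    (hc1 : c < 1) (hQ : ∀ᵐ h ∂Q, |h| ≤ H) :
    pressure lam P Q N =
      (1 / (N : ℝ)) * ∫ n, clMean νb νf Q K N c H n ∂poissonMeasure (lam * N).toNNReal := by
  unfold pressure
  congr 1
  exact integral_congr_ae (ae_of_all _ fun n => mean_logPartition hmk hc hc1 hQ n)

variable {m : Fin r → ℝ} {x : (Fin (r + 1) → ℝ) → ℝ} [NeZero K]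

theorem mean_site (hmk : MeasurePreserving (mkF c) (facLaw K νb νf) P) (hm : ∀ i, 0 < m i)
    (hc : 0 ≤ c) (hc1 : c < 1) (hH : 0 ≤ H) (hQ : ∀ᵐ h ∂Q, |h| ≤ H) (hx : Measurable x)
    (hb : ∀ ω, |x ω| ≤ 1) (i : ℕ) :
    ∫ d : Fin i → Factor K × Fin K, ∫ h, ∫ ω₀ : Fin i × Fin K → ℝ,
        Real.log (nestedMean m fun ω => siteTerm d h fun a => x (Fin.cons (ω₀ a) (ω a)))
      ∂(Measure.pi fun _ => unif) ∂Q ∂(Measure.pi fun _ => P.prod (unifFin (Fin K))) =
      siMean νb νf Q K m x c H i := by
  simp only [nestedMean_eq]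
  set T : ((Fin i → Factor K × Fin K) × ℝ) × (Fin i × Fin K → ℝ) → ℝ := fun q =>
    Real.log (genNested (piUnif (Fin i × Fin K)) m fun ω =>
      siteTerm q.1.1 q.1.2 fun a => x (Fin.cons (q.2 a) fun p => ω p a)) with hT
  have hTm : Measurable T :=
    measurable_logGen_msgs (E := (Fin i → Factor K × Fin K) × ℝ) m hx
      (fun e y => siteTerm e.1 e.2 y) (measurable_siteTerm i)
  change ∫ d, ∫ h, ∫ ω₀, T ((d, h), ω₀) ∂(Measure.pi fun _ => unif) ∂Q
    ∂(Measure.pi fun _ => P.prod (unifFin (Fin K))) = _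
  have hT1 : StronglyMeasurable fun q : (Fin i → Factor K × Fin K) × ℝ =>
      ∫ ω₀, T (q, ω₀) ∂(Measure.pi fun _ : Fin i × Fin K => unif) :=
    hTm.stronglyMeasurable.integral_prod_right'
  have he : MeasurePreserving (fun wb : Fin i → Fin K × Fac K => fun a => (mkF c (wb a).2, (wb a).1))
      (Measure.pi fun _ => (unifFin (Fin K)).prod (facLaw K νb νf))
      (Measure.pi fun _ => P.prod (unifFin (Fin K))) :=
    mp_pi ((hmk.prod (MeasurePreserving.id _)).comp Measure.measurePreserving_swap)
  rw [← integral_mp he (hT1.integral_prod_right').measurable]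
  let G : (Fin i → Fin K × Fac K) → (Fin i → Fin K → ℝ) → ℝ → ℝ := fun wb u h =>
    siLog m x c H h i fun a => (wb a, u a)
  have hGm : Measurable fun q : ((Fin i → Fin K × Fac K) × (Fin i → Fin K → ℝ)) × ℝ =>
      G q.1.1 q.1.2 q.2 :=
    (measurable_siLog hx i).comp (f := fun q : ((Fin i → Fin K × Fac K) × (Fin i → Fin K → ℝ)) × ℝ =>
        (q.2, fun a => (q.1.1 a, q.1.2 a)))
      (measurable_snd.prodMk (measurable_pi_lambda _ fun a =>
        ((measurable_pi_apply a).comp (measurable_fst.comp measurable_fst)).prodMk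
          ((measurable_pi_apply a).comp (measurable_snd.comp measurable_fst))))
  have hGb : ∀ wb u h, ‖G wb u h‖ ≤ Real.log 2 + H + i * Lc c := fun wb u h =>
    abs_siLog_le hm hc hc1 hH hx hb h i _
  have hGin : ∀ q : (Fin i → Fin K × Fac K) × (Fin i → Fin K → ℝ),
      ‖∫ h, G q.1 q.2 h ∂Q‖ ≤ Real.log 2 + H + i * Lc c := fun q => by
    simpa using norm_integral_le_of_norm_le_const (μ := Q) (ae_of_all _ (hGb q.1 q.2))
  have hint : Integrable (fun q : (Fin i → Fin K × Fac K) × (Fin i → Fin K → ℝ) =>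
      ∫ h, G q.1 q.2 h ∂Q) ((Measure.pi fun _ => (unifFin (Fin K)).prod (facLaw K νb νf)).prod
        (Measure.pi fun _ => piUnif (Fin K))) :=
    Integrable.of_bound hGm.stronglyMeasurable.integral_prod_right'.aestronglyMeasurable _
      (ae_of_all _ hGin)
  have hsi : Measurable fun w : Fin i → SiD K => ∫ h, siLog m x c H h i w ∂Q :=
    (((measurable_siLog hx i).comp measurable_swap).stronglyMeasurable.integral_prod_right'
      (ν := Q)).measurable
  have hR : siMean νb νf Q K m x c H i = ∫ wb, ∫ u, ∫ h, G wb u h ∂Q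
      ∂(Measure.pi fun _ => piUnif (Fin K))
      ∂(Measure.pi fun _ => (unifFin (Fin K)).prod (facLaw K νb νf)) := by
    have hz := mp_zip (ι := Fin i) ((unifFin (Fin K)).prod (facLaw K νb νf)) (piUnif (Fin K))
    rw [siMean, siLaw, ← integral_mp hz hsi]
    exact integral_prod _ hint
  rw [hR]
  refine integral_congr_ae (ae_of_all _ fun wb => ?_)
  simp only
  have hsw : Integrable (Function.uncurry (G wb))
      ((Measure.pi fun _ : Fin i => piUnif (Fin K)).prod Q) := by
    refine Integrable.of_bound ?_ _ (ae_of_all _ fun q => hGb wb q.1 q.2)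
    exact (hGm.comp (f := fun q : (Fin i → Fin K → ℝ) × ℝ => ((wb, q.1), q.2))
      ((measurable_const.prodMk measurable_fst).prodMk measurable_snd)).aestronglyMeasurable
  rw [integral_integral_swap hsw]
  refine integral_congr_ae ?_
  filter_upwards [hQ] with h hh
  refine (integral_mp (mp_uncurry (ι := Fin i) (κ := Fin K) unif)
    (hTm.comp (f := fun ω₀ : Fin i × Fin K → ℝ => ((fun a => (mkF c (wb a).2, (wb a).1), h), ω₀))
      (measurable_const.prodMk measurable_id))).symm.trans ?_
  refine integral_congr_ae (ae_of_all _ fun u => ?_)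
  simp only [G, hT, Function.comp_apply, siLog]
  congr 2
  funext ω
  simp only [siteTerm, siY, siB, factorWeight, mkF, favg_eq_sum, clip_eq hh]
  refine sum_congr rfl fun ε _ => ?_
  congr 1
  refine prod_congr rfl fun a _ => ?_
  exact factor_site_sum (wb a).1 ε (clip c (wb a).2.1) (fun j s => clip 1 ((wb a).2.2 j s))
    (fun j s => (1 + x (Fin.cons (u a j) fun p => ω p (a, j)) * spin s) / 2) fun j => sum_half _

theorem trialU_eq (hmk : MeasurePreserving (mkF c) (facLaw K νb νf) P) (hm : ∀ i, 0 < m i)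
    (hc : 0 ≤ c) (hc1 : c < 1) (hH : 0 ≤ H) (hQ : ∀ᵐ h ∂Q, |h| ≤ H) (hx : Measurable x)
    (hb : ∀ ω, |x ω| ≤ 1) :
    trialU lam P Q m x =
      ∫ n, siMean νb νf Q K m x c H n ∂poissonMeasure ((K : ℝ) * lam).toNNReal :=
  integral_congr_ae (ae_of_all _ fun n => mean_site hmk hm hc hc1 hH hQ hx hb n)

theorem log_edge_family (hm : ∀ i, 0 < m i) (hc : 0 ≤ c) (hc1 : c < 1) (hx : Measurable x)
    (hb : ∀ ω, |x ω| ≤ 1) (i : ℕ) (wb : Fin i → Fac K) (u : Fin i → Fin K → ℝ) :
    Real.log (genNested (piUnif (Fin i × Fin K)) m fun ω => edgeTerm (fun a => mkF c (wb a))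
      fun a => x (Fin.cons (u a.1 a.2) fun p => ω p a)) = ∑ k, edLog m x c (wb k, u k) := by
  have e : (fun ω : Fin r → Fin i × Fin K → ℝ => edgeTerm (fun a => mkF c (wb a)) fun a =>
      x (Fin.cons (u a.1 a.2) fun p => ω p a)) =
      fun ω => ∏ k, edF x c (wb k, u k) fun p j => ω p (k, j) := by
    funext ω
    simp only [edgeTerm, factorWeight, mkF, edF, favg_eq_sum]
    exact prod_congr rfl fun k _ => factor_edge_sum (clip c (wb k).1)
      (fun j s => clip 1 ((wb k).2 j s))
      (fun j s => (1 + x (Fin.cons (u k j) fun p => ω p (k, j)) * spin s) / 2) fun j => sum_half _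
  rw [e]
  rw [genNested_family (fun _ : Fin i => Fin K) (fun k j => (k, j))
    (fun k _ _ h => (Prod.ext_iff.1 h).2) (fun k l hkl a b h => hkl (Prod.ext_iff.1 h).1) m
    (fun k => edF x c (wb k, u k))
    (fun k => (measurable_edF hx).comp (f := fun ω => ((wb k, u k), ω))
      (measurable_const.prodMk measurable_id))
    (fun k ω => (Real.exp_pos _).le.trans (edF_bounds hc hc1 hb _ ω).1)
    (genNested_one _ m hm) univ,
    Real.log_prod fun k _ => ((Real.exp_pos _).trans_le (edGen_bounds hm hc hc1 hx hb _).1).ne']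
  rfl

theorem mean_edge (hmk : MeasurePreserving (mkF c) (facLaw K νb νf) P) (hm : ∀ i, 0 < m i)
    (hc : 0 ≤ c) (hc1 : c < 1) (hx : Measurable x) (hb : ∀ ω, |x ω| ≤ 1) (i : ℕ) :
    ∫ d : Fin i → Factor K, ∫ ω₀ : Fin i × Fin K → ℝ,
        Real.log (nestedMean m fun ω => edgeTerm d fun a => x (Fin.cons (ω₀ a) (ω a)))
      ∂(Measure.pi fun _ => unif) ∂(Measure.pi fun _ => P) =
      (i : ℝ) * edMean νb νf K m x c := by
  simp only [nestedMean_eq]
  set T : (Fin i → Factor K) × (Fin i × Fin K → ℝ) → ℝ := fun q =>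
    Real.log (genNested (piUnif (Fin i × Fin K)) m fun ω =>
      edgeTerm q.1 fun a => x (Fin.cons (q.2 a) fun p => ω p a)) with hT
  have hTm : Measurable T :=
    measurable_logGen_msgs (E := Fin i → Factor K) m hx (fun e y => edgeTerm e y)
      (measurable_edgeTerm i)
  change ∫ d, ∫ ω₀, T (d, ω₀) ∂(Measure.pi fun _ => unif) ∂(Measure.pi fun _ => P) = _
  rw [← integral_mp (mp_pi (ι := Fin i) hmk)
    (hTm.stronglyMeasurable.integral_prod_right').measurable]
  have hval : ∀ (wb : Fin i → Fac K) (u : Fin i → Fin K → ℝ),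
      T (fun a => mkF c (wb a), fun q => u q.1 q.2) = ∑ k, edLog m x c (wb k, u k) :=
    fun wb u => log_edge_family hm hc hc1 hx hb i wb u
  have hk : ∀ k : Fin i, MeasurePreserving
      (fun q : (Fin i → Fac K) × (Fin i → Fin K → ℝ) => (q.1 k, q.2 k))
      ((Measure.pi fun _ => facLaw K νb νf).prod (Measure.pi fun _ => piUnif (Fin K)))
      (edLaw νb νf K) := fun k =>
    (measurePreserving_eval (fun _ : Fin i => facLaw K νb νf) k).prod
      (measurePreserving_eval (fun _ : Fin i => piUnif (Fin K)) k)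
  have hki : ∀ k : Fin i, Integrable
      (fun q : (Fin i → Fac K) × (Fin i → Fin K → ℝ) => edLog m x c (q.1 k, q.2 k))
      ((Measure.pi fun _ => facLaw K νb νf).prod (Measure.pi fun _ => piUnif (Fin K))) := fun k =>
    Integrable.of_bound ((measurable_edLog hx).comp (hk k).measurable).aestronglyMeasurable (Lc c)
      (ae_of_all _ fun q => abs_edLog_le hm hc hc1 hx hb _)
  have hsum : ∫ q : (Fin i → Fac K) × (Fin i → Fin K → ℝ), (∑ k, edLog m x c (q.1 k, q.2 k))
      ∂(Measure.pi fun _ => facLaw K νb νf).prod (Measure.pi fun _ => piUnif (Fin K)) =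
      (i : ℝ) * edMean νb νf K m x c := by
    rw [integral_finsetSum _ fun k _ => hki k]
    have : ∀ k : Fin i, ∫ q : (Fin i → Fac K) × (Fin i → Fin K → ℝ), edLog m x c (q.1 k, q.2 k)
        ∂(Measure.pi fun _ => facLaw K νb νf).prod (Measure.pi fun _ => piUnif (Fin K)) =
        edMean νb νf K m x c := fun k => integral_mp (hk k) (measurable_edLog hx)
    simp [this]
  rw [← hsum, integral_prod _ (integrable_finsetSum _ fun k _ => hki k)]
  refine integral_congr_ae (ae_of_all _ fun wb => ?_)
  simp only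
  refine (integral_mp (mp_uncurry (ι := Fin i) (κ := Fin K) unif)
    (hTm.comp (f := fun ω₀ : Fin i × Fin K → ℝ => ((fun a => mkF c (wb a)), ω₀))
      (measurable_const.prodMk measurable_id))).symm.trans ?_
  exact integral_congr_ae (ae_of_all _ fun u => hval wb u)

theorem trialV_eq (hmk : MeasurePreserving (mkF c) (facLaw K νb νf) P) (hm : ∀ i, 0 < m i)
    (hc : 0 ≤ c) (hc1 : c < 1) (hx : Measurable x) (hb : ∀ ω, |x ω| ≤ 1) (hlam : 0 ≤ lam) :
    trialV lam P m x = ((K : ℝ) - 1) * lam * edMean νb νf K m x c := by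
  have hK1 : (1 : ℝ) ≤ K := by exact_mod_cast NeZero.pos K
  rw [← poisson_mean (mul_nonneg (by linarith : (0 : ℝ) ≤ (K : ℝ) - 1) hlam) (edMean νb νf K m x c)]
  exact integral_congr_ae (ae_of_all _ fun n => mean_edge hmk hm hc hc1 hx hb n)

end

end Vale.Agent.P168.Upper
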