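import Vale.Agent.P168.Statements

/-! The one-slot inequality: replacing a site term by a clause or an edge term. -/

open MeasureTheory ProbabilityTheory Finset
open scoped BigOperators

namespace Vale.Agent.P168.Upper

/-- Bernoulli's inequality in homogeneous form, for an even exponent. -/
theorem even_amgm {K : ℕ} (hK : Even K) (h1 : 1 ≤ K) (r q : ℝ) :
    (K : ℝ) * (r * q ^ (K - 1)) ≤ r ^ K + ((K : ℝ) - 1) * q ^ K := by
  have hqK : 0 ≤ q ^ K := hK.pow_nonneg q
  have hrK : 0 ≤ r ^ K := hK.pow_nonneg r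
  rcases eq_or_ne q 0 with rfl | hq
  · rcases eq_or_lt_of_le h1 with rfl | h2
    · simp at hK
    · rw [zero_pow (by omega), zero_pow (by omega)]
      linarith
  set t := r / q with ht
  have hr : r = t * q := by rw [ht, div_mul_cancel₀ _ hq]
  have e : r * q ^ (K - 1) = t * q ^ K := by
    rw [hr, mul_assoc, ← pow_succ', Nat.sub_add_cancel h1]
  rw [e, hr, mul_pow]
  have hb := one_add_mul_le_pow (a := |t| - 1) (by linarith [abs_nonneg t]) K
  rw [add_sub_cancel, hK.pow_abs] at hb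
  have hk : (0 : ℝ) ≤ K := Nat.cast_nonneg K
  nlinarith [le_abs_self t, mul_le_mul_of_nonneg_right hb hqK,
    mul_nonneg (mul_nonneg hk (sub_nonneg.mpr (le_abs_self t))) hqK]

variable {D A : Type} [MeasurableSpace D] [Fintype A]

/-- `∑ g_a ∏_j z_j(a)` with the spin version `zs` on the coordinates in `S`. -/
def zav {K : ℕ} (g : A → ℝ) (zs zm : D → A → ℝ) (S : Finset (Fin K)) (d : Fin K → D) : ℝ :=
  ∑ a, g a * ∏ j, if j ∈ S then zs (d j) a else zm (d j) a

variable {K : ℕ} {g : A → ℝ} {zs zm : D → A → ℝ}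

omit [MeasurableSpace D] in
theorem zav_abs_le (hg : ∀ a, 0 ≤ g a) (hg1 : ∑ a, g a = 1) (hs : ∀ d a, |zs d a| ≤ 1)
    (hm : ∀ d a, |zm d a| ≤ 1) (S : Finset (Fin K)) (d : Fin K → D) :
    |zav g zs zm S d| ≤ 1 := by
  refine (abs_sum_le_sum_abs _ _).trans (le_of_le_of_eq (sum_le_sum fun a _ => ?_) hg1)
  rw [abs_mul, abs_of_nonneg (hg a), abs_prod]
  refine mul_le_of_le_one_right (hg a) (prod_le_one (fun j _ => abs_nonneg _) fun j _ => ?_)
  split_ifs
  · exact hs _ _
  · exact hm _ _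

theorem zav_measurable (hs : ∀ a, Measurable fun d => zs d a) (hm : ∀ a, Measurable fun d => zm d a)
    (S : Finset (Fin K)) : Measurable (zav g zs zm S) := by
  refine Finset.measurable_sum _ fun a _ => (Finset.measurable_prod _ fun j _ => ?_).const_mul _
  split_ifs
  · exact (hs a).comp (measurable_pi_apply j)
  · exact (hm a).comp (measurable_pi_apply j)

/-- Moments of `zav` factorise over the coordinates. -/
theorem integral_zav_pow (μ : Measure D) [IsProbabilityMeasure μ] (hg : ∀ a, 0 ≤ g a)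
    (hs : ∀ d a, |zs d a| ≤ 1) (hm : ∀ d a, |zm d a| ≤ 1)
    (hsm : ∀ a, Measurable fun d => zs d a) (hmm : ∀ a, Measurable fun d => zm d a)
    (S : Finset (Fin K)) (n : ℕ) :
    ∫ d, zav g zs zm S d ^ n ∂(Measure.pi fun _ => μ) =
      ∑ a : Fin n → A, (∏ l, g (a l)) *
        ((∫ d, ∏ l, zs d (a l) ∂μ) ^ S.card * (∫ d, ∏ l, zm d (a l) ∂μ) ^ (K - S.card)) := by
  have hexp : ∀ d : Fin K → D, zav g zs zm S d ^ n = ∑ a : Fin n → A, (∏ l, g (a l)) *
      ∏ j, ∏ l, if j ∈ S then zs (d j) (a l) else zm (d j) (a l) := by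
    intro d
    rw [zav, Fintype.sum_pow]
    refine sum_congr rfl fun a _ => ?_
    rw [prod_mul_distrib, Finset.prod_comm]
  simp only [hexp]
  rw [integral_finsetSum _ fun a _ => ?_]
  · refine sum_congr rfl fun a _ => ?_
    rw [integral_const_mul, integral_fintype_prod_eq_prod
      (f := fun j d => ∏ l, if j ∈ S then zs d (a l) else zm d (a l))]
    congr 1
    rw [← prod_mul_prod_compl S]
    congr 1
    · rw [← prod_const]
      exact prod_congr rfl fun j hj => by simp [hj]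
    · rw [← card_compl_fin_aux S, ← prod_const]
      exact prod_congr rfl fun j hj => by simp [mem_compl.mp hj]
  · refine Integrable.of_bound (Measurable.aestronglyMeasurable ?_) (∏ l, g (a l)) ?_
    · refine (Finset.measurable_prod _ fun j _ => Finset.measurable_prod _ fun l _ => ?_).const_mul _
      split_ifs
      · exact (hsm (a l)).comp (measurable_pi_apply j)
      · exact (hmm (a l)).comp (measurable_pi_apply j)
    · refine ae_of_all _ fun d => ?_
      rw [Real.norm_eq_abs, abs_mul, abs_of_nonneg (prod_nonneg fun l _ => hg (a l)), abs_prod]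
      refine mul_le_of_le_one_right (prod_nonneg fun l _ => hg (a l))
        (prod_le_one (fun j _ => abs_nonneg _) fun j _ => ?_)
      rw [abs_prod]
      refine prod_le_one (fun l _ => abs_nonneg _) fun l _ => ?_
      split_ifs
      · exact hs _ _
      · exact hm _ _
where
  card_compl_fin_aux (S : Finset (Fin K)) : Sᶜ.card = K - S.card := by simp [card_compl]

/-- The coordinates carrying spins in the clause or edge slot of kind `ℓ`. -/
def selA (ℓ : Fin K) : Finset (Fin K) := if ℓ.val = 0 then univ else ∅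

/-- The coordinates carrying spins in the site slot of position `ℓ`. -/
def selB (ℓ : Fin K) : Finset (Fin K) := {ℓ}

theorem sum_moment_le (μ : Measure D) [IsProbabilityMeasure μ] (hK : Even K) (h1 : 1 ≤ K)
    (hg : ∀ a, 0 ≤ g a) (hs : ∀ d a, |zs d a| ≤ 1) (hm : ∀ d a, |zm d a| ≤ 1)
    (hsm : ∀ a, Measurable fun d => zs d a) (hmm : ∀ a, Measurable fun d => zm d a) (n : ℕ) :
    ∑ ℓ, ∫ d, zav g zs zm (selB ℓ) d ^ n ∂(Measure.pi fun _ : Fin K => μ) ≤
      ∑ ℓ, ∫ d, zav g zs zm (selA ℓ) d ^ n ∂(Measure.pi fun _ : Fin K => μ) := by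
  simp only [integral_zav_pow μ hg hs hm hsm hmm]
  rw [sum_comm, sum_comm (f := fun (ℓ : Fin K) (a : Fin n → A) => _)]
  refine sum_le_sum fun a _ => ?_
  simp only [← mul_sum]
  refine mul_le_mul_of_nonneg_left ?_ (prod_nonneg fun l _ => hg (a l))
  generalize (∫ d, ∏ l, zs d (a l) ∂μ) = r
  generalize (∫ d, ∏ l, zm d (a l) ∂μ) = q
  obtain ⟨K', rfl⟩ := Nat.exists_eq_add_of_le' h1
  have e1 : ∀ ℓ : Fin (K' + 1), r ^ (selA ℓ).card * q ^ (K' + 1 - (selA ℓ).card) =
      if ℓ = 0 then r ^ (K' + 1) else q ^ (K' + 1) := by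
    intro ℓ
    by_cases h : ℓ = 0
    · simp [selA, h]
    · simp [selA, h, Fin.val_ne_zero_iff.mpr h]
  rw [Finset.sum_congr rfl fun ℓ _ => e1 ℓ]
  have h2 := even_amgm hK h1 r q
  simp [selB, Fin.sum_univ_succ] at h2 ⊢
  linarith [h2]

theorem log_poly_bound {c y : ℝ} (hc : c < 1) (hy : |y| ≤ c) (n : ℕ) :
    |(∑ i ∈ range n, y ^ (i + 1) / (i + 1)) + Real.log (1 - y)| ≤ c ^ (n + 1) / (1 - c) := by
  refine (Real.abs_log_sub_add_sum_range_le (lt_of_le_of_lt hy hc) n).trans ?_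
  have hc0 : 0 ≤ c := (abs_nonneg y).trans hy
  gcongr

/-- The one-slot inequality. -/
theorem slot_ineq (μ : Measure D) [IsProbabilityMeasure μ] (νb : Measure ℝ)
    [IsProbabilityMeasure νb] {c : ℝ} (hc : c < 1) (hc0 : 0 ≤ c)
    (bv : ℝ → ℝ) (hbm : Measurable bv) (hb : ∀ b, |bv b| ≤ c)
    (hpos : ∀ n : ℕ, 1 ≤ n → 0 ≤ ∫ b, (-bv b) ^ n ∂νb)
    (hK : Even K) (h1 : 1 ≤ K) (hg : ∀ a, 0 ≤ g a) (hs : ∀ d a, |zs d a| ≤ 1)
    (hm : ∀ d a, |zm d a| ≤ 1)
    (hsm : ∀ a, Measurable fun d => zs d a) (hmm : ∀ a, Measurable fun d => zm d a) :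
    ∑ ℓ, ∫ z : ℝ × (Fin K → D),
        Real.log (∑ a, g a * (1 + bv z.1 * ∏ j, if j ∈ selA ℓ then zs (z.2 j) a else zm (z.2 j) a))
        ∂νb.prod (Measure.pi fun _ => μ) ≤
      ∑ ℓ, ∫ z : ℝ × (Fin K → D),
        Real.log (∑ a, g a * (1 + bv z.1 * ∏ j, if j ∈ selB ℓ then zs (z.2 j) a else zm (z.2 j) a))
        ∂νb.prod (Measure.pi fun _ => μ) := by
  set G := ∑ a, g a with hG
  rcases (sum_nonneg fun a _ => hg a : 0 ≤ G).eq_or_lt with h0 | h0
  · have hz : ∀ a, g a = 0 := fun a =>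
      (sum_eq_zero_iff_of_nonneg fun a _ => hg a).mp h0.symm a (mem_univ a)
    simp [hz]
  set g' : A → ℝ := fun a => g a / G with hg'
  have hg0 : ∀ a, 0 ≤ g' a := fun a => div_nonneg (hg a) h0.le
  have hg1 : ∑ a, g' a = 1 := by
    simp only [hg', ← sum_div]
    exact div_self h0.ne'
  have habs : ∀ (S : Finset (Fin K)) (z : ℝ × (Fin K → D)),
      |-(bv z.1 * zav g' zs zm S z.2)| ≤ c := fun S z => by
    rw [abs_neg, abs_mul]
    exact (mul_le_mul (hb _) (zav_abs_le hg0 hg1 hs hm S z.2) (abs_nonneg _) hc0).trans_eq (mul_one c)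
  have hsplit : ∀ (S : Finset (Fin K)) (z : ℝ × (Fin K → D)),
      Real.log (∑ a, g a * (1 + bv z.1 * ∏ j, if j ∈ S then zs (z.2 j) a else zm (z.2 j) a)) =
        Real.log G + Real.log (1 - -(bv z.1 * zav g' zs zm S z.2)) := by
    intro S z
    have hp : 0 < 1 - -(bv z.1 * zav g' zs zm S z.2) := by
      linarith [abs_le.mp (habs S z)]
    rw [← Real.log_mul h0.ne' hp.ne']
    congr 1
    rw [zav, sub_neg_eq_add, mul_add, mul_one, mul_sum, mul_sum, ← sum_add_distrib]
    refine sum_congr rfl fun a _ => ?_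
    simp only [hg']
    rw [← hG]
    field_simp
    rw [mul_div_assoc, div_self (hG ▸ h0.ne'), mul_one]
  set π := νb.prod (Measure.pi fun _ : Fin K => μ) with hπ
  have hmeas : ∀ S : Finset (Fin K), Measurable fun z : ℝ × (Fin K → D) =>
      -(bv z.1 * zav g' zs zm S z.2) := fun S =>
    ((hbm.comp measurable_fst).mul ((zav_measurable hsm hmm S).comp measurable_snd)).neg
  have hint : ∀ (S : Finset (Fin K)), Integrable
      (fun z : ℝ × (Fin K → D) => Real.log (1 - -(bv z.1 * zav g' zs zm S z.2))) π := fun S =>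
    Integrable.of_bound (Real.measurable_log.comp (measurable_const.sub (hmeas S))).aestronglyMeasurable
      (c / (1 - c)) (ae_of_all _ fun z => by
        simpa using log_poly_bound hc (habs S z) 0)
  have hpint : ∀ (S : Finset (Fin K)) (i : ℕ), Integrable
      (fun z : ℝ × (Fin K → D) => (-(bv z.1 * zav g' zs zm S z.2)) ^ (i + 1) / (i + 1)) π := fun S i =>
    Integrable.of_bound (((hmeas S).pow_const _).div_const _).aestronglyMeasurable 1
      (ae_of_all _ fun z => by
        rw [Real.norm_eq_abs, abs_div, abs_pow, div_le_one (by positivity)]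
        have h1' : |-(bv z.1 * zav g' zs zm S z.2)| ^ (i + 1) ≤ 1 :=
          pow_le_one₀ (abs_nonneg _) ((habs S z).trans hc.le)
        have h2' : (1 : ℝ) ≤ |(i : ℝ) + 1| := by
          rw [abs_of_nonneg (by positivity)]; linarith [Nat.cast_nonneg (α := ℝ) i]
        linarith)
  set J : Finset (Fin K) → ℝ := fun S =>
    ∫ z, Real.log (1 - -(bv z.1 * zav g' zs zm S z.2)) ∂π with hJ
  have hrw : ∀ S : Finset (Fin K), ∫ z, Real.log (∑ a, g a *
      (1 + bv z.1 * ∏ j, if j ∈ S then zs (z.2 j) a else zm (z.2 j) a)) ∂π = Real.log G + J S := by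
    intro S
    simp only [hsplit]
    rw [integral_add (integrable_const _) (hint S)]
    simp [hJ]
  simp only [hrw, sum_add_distrib]
  set T : Finset (Fin K) → ℕ → ℝ := fun S i =>
    ∫ z, (-(bv z.1 * zav g' zs zm S z.2)) ^ (i + 1) / (i + 1) ∂π with hT
  have happ : ∀ (S : Finset (Fin K)) (n : ℕ), |(∑ i ∈ range n, T S i) + J S| ≤ c ^ (n + 1) / (1 - c) := by
    intro S n
    rw [hT, hJ]
    simp only
    rw [← integral_finsetSum _ fun i _ => hpint S i,
      ← integral_add (integrable_finsetSum _ fun i _ => hpint S i) (hint S), ← Real.norm_eq_abs]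
    refine (norm_integral_le_of_norm_le_const (C := c ^ (n + 1) / (1 - c))
      (ae_of_all _ fun z => ?_)).trans (by simp)
    exact log_poly_bound hc (habs S z) n
  have hTmono : ∀ i, ∑ ℓ, T (selB ℓ) i ≤ ∑ ℓ : Fin K, T (selA ℓ) i := by
    intro i
    have hTeq : ∀ S, T S i = (∫ b, (-bv b) ^ (i + 1) ∂νb) / (i + 1) *
        ∫ d, zav g' zs zm S d ^ (i + 1) ∂(Measure.pi fun _ : Fin K => μ) := by
      intro S
      rw [hT, div_mul_eq_mul_div, ← integral_prod_mul, ← integral_div]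
      refine integral_congr_ae (ae_of_all _ fun z => ?_)
      simp only [← mul_pow, neg_mul]
    simp only [hTeq, ← mul_sum]
    exact mul_le_mul_of_nonneg_left (sum_moment_le μ hK h1 hg0 hs hm hsm hmm (i + 1))
      (div_nonneg (hpos _ (Nat.le_add_left 1 i)) (by positivity))
  have hkey : ∀ n : ℕ, ∑ ℓ, J (selA ℓ) ≤
      ∑ ℓ : Fin K, J (selB ℓ) + 2 * K * (c ^ (n + 1) / (1 - c)) := by
    intro n
    have hA := sum_le_sum fun (ℓ : Fin K) (_ : ℓ ∈ univ) => (abs_le.mp (happ (selA ℓ) n)).2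
    have hB := sum_le_sum fun (ℓ : Fin K) (_ : ℓ ∈ univ) => (abs_le.mp (happ (selB ℓ) n)).1
    simp only [sum_add_distrib, sum_const, card_univ, Fintype.card_fin, nsmul_eq_mul] at hA hB
    have hsum : ∑ ℓ : Fin K, ∑ i ∈ range n, T (selB ℓ) i ≤
        ∑ ℓ : Fin K, ∑ i ∈ range n, T (selA ℓ) i := by
      rw [sum_comm, sum_comm (f := fun ℓ i => T (selA ℓ) i)]
      exact sum_le_sum fun i _ => hTmono i
    linarith
  have hlim : Filter.Tendsto (fun n : ℕ => ∑ ℓ : Fin K, J (selB ℓ) + 2 * K * (c ^ (n + 1) / (1 - c)))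
      Filter.atTop (nhds (∑ ℓ : Fin K, J (selB ℓ))) := by
    have := (((tendsto_pow_atTop_nhds_zero_of_lt_one hc0 hc).comp
      (Filter.tendsto_add_atTop_nat 1)).div_const (1 - c)).const_mul (2 * (K : ℝ))
    simpa using this.const_add (∑ ℓ : Fin K, J (selB ℓ))
  linarith [ge_of_tendsto hlim (Filter.Eventually.of_forall hkey)]

end Vale.Agent.P168.Upper
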